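import Vale.Agent.N026.Ana

/-!
P026, consequences of the zero-free half-plane, part 2: bounds for Dirichlet `L`-functions, primes
and the Moebius function in progressions, and the size of `L(1, χ)`.
-/

namespace Vale.Agent.N026

open Complex Set MeasureTheory DirichletCharacter ArithmeticFunction Filter Topology
open Vale.Agent.P026.H392 Vale.Agent.P005Z.PT
open scoped Real Classical

/-- an absolute constant -/
noncomputable def cA : ℝ := 16 + ∑' n, ‖LSeries.term (fun _ => 1) (5 / 4 : ℝ) n‖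

theorem cA_ge : 16 ≤ cA := le_add_of_nonneg_right (tsum_nonneg fun _ => norm_nonneg _)

theorem norm_LSeries_le_cA {f : ℕ → ℂ} (hf : ∀ n, ‖f n‖ ≤ 1) {z : ℂ} (hz : 5 / 4 < z.re) :
    ‖LSeries f z‖ ≤ cA := by
  have h : LSeriesSummable (fun _ => 1) (5 / 4 : ℝ) :=
    LSeriesSummable_one_iff.2 (by rw [ofReal_re]; norm_num)
  refine (tsum_of_norm_bounded h.norm.hasSum fun n => ?_).trans (le_add_of_nonneg_left (by norm_num))
  exact (LSeries.norm_term_le z (by simpa using hf n)).trans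
    (LSeries.norm_term_le_of_re_le_re _ (by rw [ofReal_re]; linarith) n)

variable {q : ℕ} [NeZero q]

theorem norm_L_le (χ : DirichletCharacter ℂ q) {z : ℂ} (hz : 5 / 4 < z.re) :
    ‖LFunction χ z‖ ≤ cA := by
  rw [LFunction_eq_LSeries χ (by linarith)]
  exact norm_LSeries_le_cA (fun n => χ.norm_le_one _) hz

omit [NeZero q] in
theorem norm_mu_le (χ : DirichletCharacter ℂ q) (n : ℕ) : ‖χ n * (moebius n : ℂ)‖ ≤ 1 := by
  rw [norm_mul, Complex.norm_intCast]
  exact mul_le_one₀ (χ.norm_le_one _) (abs_nonneg _) (by exact_mod_cast abs_moebius_le_one)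

theorem LSeries_mu (χ : DirichletCharacter ℂ q) {z : ℂ} (hz : 1 < z.re) :
    LSeries (fun n => χ n * (moebius n : ℂ)) z = (LFunction χ z)⁻¹ := by
  rw [LFunction_eq_LSeries χ hz]
  exact eq_inv_of_mul_eq_one_right (DirichletCharacter.LSeries.mul_mu_eq_one χ hz)

/-- the `L`-function with the pole removed -/
noncomputable def gc (χ : DirichletCharacter ℂ q) (z : ℂ) : ℂ :=
  if χ = 1 then LFunctionTrivChar₁ q z / z else LFunction χ z

theorem gc_one {z : ℂ} (hz : z ≠ 1) :
    gc (1 : DirichletCharacter ℂ q) z = (z - 1) / z * LFunction (1 : DirichletCharacter ℂ q) z := by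
  rw [gc, if_pos rfl, LFunctionTrivChar₁, Function.update_of_ne hz]
  ring

theorem gc_ne {χ : DirichletCharacter ℂ q} (h : χ ≠ 1) : gc χ = LFunction χ := by
  ext z; rw [gc, if_neg h]

theorem norm_ratio_le {z : ℂ} (hz : 1 / 2 ≤ z.re) : ‖(z - 1) / z‖ ≤ 1 := by
  rw [norm_div]
  refine div_le_one_of_le₀ ?_ (norm_nonneg _)
  rw [← sq_le_sq₀ (norm_nonneg _) (norm_nonneg _), ← normSq_eq_norm_sq, ← normSq_eq_norm_sq,
    normSq_apply, normSq_apply]
  simp only [sub_re, one_re, sub_im, one_im, sub_zero]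
  nlinarith

theorem triv_eq (z : ℂ) : LFunctionTrivChar₁ q z =
    (∏ p ∈ q.primeFactors, (1 - (p : ℂ) ^ (-z))) * riemannZeta₁ z := by
  by_cases h : z = 1
  · subst h
    simp [LFunctionTrivChar₁, riemannZeta₁_one, cpow_neg_one]
  · rw [LFunctionTrivChar₁, Function.update_of_ne h, LFunctionTrivChar_eq_mul_riemannZeta h,
      zeta1_eq h]
    ring

theorem good (h : QRH) (χ : DirichletCharacter ℂ q) : Good (gc χ) cA q := by
  have hq : (1 : ℝ) ≤ q := by exact_mod_cast NeZero.one_le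
  have hA := cA_ge
  have hz0 : ∀ z : ℂ, 11 / 12 < z.re → z ≠ 0 := fun z hz e => by norm_num [e] at hz
  by_cases hχ : χ = 1
  · subst hχ
    refine ⟨hq, ?_, fun z hz => ?_, fun z hz => ?_, fun z hz => ?_, fun τ => ?_⟩
    · unfold gc
      simp only [if_true]
      exact (differentiable_LFunctionTrivChar₁ q).differentiableOn.div differentiableOn_id hz0
    · by_cases h1 : z = 1
      · rw [h1, gc, if_pos rfl, div_one]
        exact LFunctionTrivChar₁_apply_one_ne_zero q
      · rw [gc_one h1]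
        exact mul_ne_zero (div_ne_zero (sub_ne_zero.2 h1) (hz0 z hz)) (h q 1 z hz (Or.inr h1))
    · have h1 : ‖∏ p ∈ q.primeFactors, (1 - (p : ℂ) ^ (-z))‖ ≤ q := by
        rw [norm_prod]
        refine le_trans (Finset.prod_le_prod (g := fun p : ℕ => (p : ℝ))
          (fun _ _ => norm_nonneg _) fun p hp => ?_) ?_
        · have hp := Nat.prime_of_mem_primeFactors hp
          have h2 : (2 : ℝ) ≤ p := by exact_mod_cast hp.two_le
          refine (norm_sub_le _ _).trans ?_
          rw [norm_one, Complex.norm_natCast_cpow_of_pos hp.pos]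
          have := Real.rpow_le_one_of_one_le_of_nonpos (x := p) (z := (-z).re) (by linarith)
            (by rw [neg_re]; linarith)
          linarith
        · rw [← Nat.cast_prod]
          exact_mod_cast Nat.le_of_dvd (NeZero.pos q) (Nat.prod_primeFactors_dvd q)
      have h2 := zeta1_le hz
      have h3 : 11 / 12 ≤ ‖z‖ := hz.le.trans ((le_abs_self _).trans (abs_re_le_norm z))
      rw [gc, if_pos rfl, triv_eq, norm_div, norm_mul, div_le_iff₀ (by linarith)]
      calc _ ≤ q * (12 * 1 * (‖z‖ + 1) ^ 2) := by gcongr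
        _ ≤ 16 * q * (‖z‖ + 1) ^ 2 * (11 / 12) := by
            nlinarith [mul_nonneg (zero_le_one.trans hq) (sq_nonneg (‖z‖ + 1))]
        _ ≤ _ := by gcongr
    · rw [gc_one (fun e => by norm_num [e] at hz), norm_mul]
      exact (mul_le_of_le_one_left (norm_nonneg _) (norm_ratio_le (by linarith))).trans
        (norm_L_le 1 hz)
    · have h1 := half_le_L (1 : DirichletCharacter ℂ q) τ
      have h2 : 1 / 2 ≤ ‖(2 + τ * I - 1) / (2 + τ * I)‖ := by
        have h3 := abs_re_le_norm (2 + τ * I - 1)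
        have h4 := norm_add_le (2 + τ * I - 1) 1
        have h5 := abs_re_le_norm (2 + τ * I)
        norm_num at h3 h4 h5
        rw [norm_div, le_div_iff₀ (by linarith)]
        linarith
      rw [gc_one (fun e => by simpa using congrArg re e), norm_mul]
      nlinarith [mul_le_mul h2 h1 (by norm_num) (norm_nonneg _)]
  · rw [gc_ne hχ]
    refine ⟨hq, (differentiable_LFunction hχ).differentiableOn,
      fun z hz => h q χ z hz (Or.inl hχ), fun z hz => ?_, fun z hz => norm_L_le χ hz, fun τ => ?_⟩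
    · refine (L_crude χ (by linarith) (Or.inl hχ)).trans ?_
      have := norm_nonneg z
      calc _ ≤ 16 * q * (‖z‖ + 1) ^ 2 := by
            nlinarith [mul_nonneg (zero_le_one.trans hq) this,
              mul_nonneg (zero_le_one.trans hq) (sq_nonneg ‖z‖)]
        _ ≤ _ := by gcongr
    · nlinarith [half_le_L χ τ]

/-- **The Lindeloef bound** for `L` and `1/L` in the zero-free half-plane. -/
theorem lindeloef (h : QRH) {σ ε : ℝ} (hσ : 11 / 12 < σ) (hε : 0 < ε) : ∃ C : ℝ,
    ∀ (q : ℕ) [NeZero q] (χ : DirichletCharacter ℂ q) (s : ℂ), σ ≤ s.re →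
      (χ ≠ 1 ∨ 1 ≤ |s.im|) → ‖LFunction χ s‖ ≤ C * (q * (1 + |s.im|)) ^ ε ∧
        ‖(LFunction χ s)⁻¹‖ ≤ C * (q * (1 + |s.im|)) ^ ε := by
  have hA := cA_ge
  obtain ⟨C, hC, H⟩ := log_bound (δ := min (σ - 11 / 12) (1 / 12)) (A := cA)
    (lt_min (by linarith) (by norm_num)) (min_le_right _ _) hε (by linarith)
  refine ⟨2 * C + cA, fun q _ χ s hs hχ => ?_⟩
  have hq : (1 : ℝ) ≤ q := by exact_mod_cast NeZero.one_le
  have hP : 1 ≤ (q * (1 + |s.im|)) ^ ε :=
    Real.one_le_rpow (by nlinarith [abs_nonneg s.im]) hε.le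
  rcases le_total s.re 2 with h2 | h2
  · obtain ⟨h3, h4, -⟩ := H _ _ (good h χ) s (by linarith [min_le_left (σ - 11 / 12) (1 / 12)]) h2
    by_cases h1 : χ = 1
    · subst h1
      have h5 : 1 ≤ |s.im| := hχ.resolve_left (by simp)
      have h6 : 1 ≤ ‖s - 1‖ := by simpa using h5.trans (by simpa using abs_im_le_norm (s - 1))
      have h7 : s ≠ 1 := fun e => by norm_num [e] at h6
      have h8 : s ≠ 0 := fun e => by norm_num [e] at h5
      have h9 : 1 / 2 ≤ ‖(s - 1) / s‖ := by
        have := norm_add_le (s - 1) 1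
        rw [sub_add_cancel, norm_one] at this
        rw [norm_div, le_div_iff₀ (norm_pos_iff.2 h8)]
        linarith
      have h10 : (LFunction (1 : DirichletCharacter ℂ q) s)⁻¹ =
          (s - 1) / s * (gc (1 : DirichletCharacter ℂ q) s)⁻¹ := by
        rw [gc_one h7, mul_inv, mul_inv_cancel_left₀ (div_ne_zero (sub_ne_zero.2 h7) h8)]
      rw [gc_one h7, norm_mul] at h3
      constructor
      · nlinarith [norm_nonneg (LFunction (1 : DirichletCharacter ℂ q) s)]
      · rw [h10, norm_mul]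
        refine (mul_le_of_le_one_left (norm_nonneg _) (norm_ratio_le (by linarith))).trans ?_
        nlinarith
    · rw [gc_ne h1] at h3 h4
      constructor <;> nlinarith
  · have h3 := norm_L_le χ (z := s) (by linarith)
    have h4 := norm_LSeries_le_cA (norm_mu_le χ) (z := s) (by linarith)
    rw [LSeries_mu χ (by linarith)] at h4
    constructor <;> nlinarith

theorem log_le_split {Q t η : ℝ} (hQ : 1 ≤ Q) (ht : 0 ≤ t) (hη : 0 < η) :
    1 + Real.log (Q * (1 + t)) ≤ (1 + η⁻¹) * (1 + Real.log Q) * (1 + t) ^ η := by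
  have h1 := Real.log_le_rpow_div (x := 1 + t) (by linarith) hη
  have h2 : 1 ≤ (1 + t) ^ η := Real.one_le_rpow (by linarith) hη.le
  have h3 := Real.log_nonneg hQ
  have h4 : 0 < η⁻¹ := inv_pos.2 hη
  rw [Real.log_mul (by linarith) (by linarith)]
  rw [div_eq_mul_inv] at h1
  nlinarith [mul_nonneg h3 h4.le, mul_nonneg (mul_nonneg h3 h4.le) (zero_le_one.trans h2)]

/-- twisted sums of the von Mangoldt function -/
theorem psi_char (h : QRH) {θ : ℝ} (hθ : 11 / 12 < θ) : ∃ C : ℝ, 1 ≤ C ∧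
    ∀ (q : ℕ) [NeZero q] (χ : DirichletCharacter ℂ q) (y : ℕ), 1 ≤ y →
      ‖∑ n ∈ Finset.Icc 1 y, χ n * (Λ n : ℂ) - (if χ = 1 then 1 else 0) * y‖ ≤
        C * (1 + Real.log q) * (y : ℝ) ^ θ := by
  set δ := min ((θ - 11 / 12) / 3) (1 / 12) with hδ
  have hδ0 : 0 < δ := lt_min (by linarith) (by norm_num)
  have hδ1 : δ ≤ 1 / 12 := min_le_right _ _
  have hδ2 : δ ≤ (θ - 11 / 12) / 3 := min_le_left _ _
  obtain ⟨C₁, hC₁, H⟩ := log_bound (ε := 1) (A := cA) hδ0 hδ1 one_pos (by linarith [cA_ge])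
  obtain ⟨C₂, hC₂, P⟩ := perron hδ0 (by linarith)
  refine ⟨C₂ * ((C₁ + 2) * (1 + δ⁻¹)) + 1, le_add_of_nonneg_left (by positivity),
    fun q _ χ y hy => ?_⟩
  have hq : (1 : ℝ) ≤ q := by exact_mod_cast NeZero.one_le
  have hy1 : (1 : ℝ) ≤ y := by exact_mod_cast hy
  have hl := Real.log_nonneg hq
  have G := good h χ
  have hdg : ∀ z : ℂ, 11 / 12 < z.re → DifferentiableAt ℂ (logDeriv (gc χ)) z := fun z hz => by
    have ho : IsOpen {z : ℂ | 11 / 12 < z.re} := isOpen_lt continuous_const continuous_re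
    exact ((G.hd.deriv ho).div G.hd G.h0).differentiableAt (ho.mem_nhds hz)
  have hz0 : ∀ z : ℂ, 11 / 12 < z.re → z ≠ 0 := fun z hz e => by norm_num [e] at hz
  set c : ℂ := if χ = 1 then 1 else 0 with hc
  have hc1 : ‖c‖ ≤ 1 := by rw [hc]; split_ifs <;> simp
  have key := P (fun n => χ n * (Λ n : ℂ)) (fun z => -logDeriv (gc χ) z - c / z) c
    ((C₁ + 2) * (1 + δ⁻¹) * (1 + Real.log q)) (11 / 12 + δ)
    (LSeriesSummable_twist_vonMangoldt χ (by simp)) (by linarith) (by linarith)
    (fun z h1 _ => (hdg z (by linarith)).neg.sub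
      ((differentiableAt_const c).div differentiableAt_id (hz0 z (by linarith))))
    (fun z h1 h2 => by
      have h3 := (H _ _ G z h1 h2).2.2
      have h4 := log_le_split hq (abs_nonneg z.im) hδ0
      have h5 : ‖c / z‖ ≤ 2 := by
        have : 11 / 12 ≤ ‖z‖ := by linarith [(le_abs_self _).trans (abs_re_le_norm z)]
        rw [norm_div, div_le_iff₀ (by linarith)]
        linarith
      have h6 : 0 ≤ Real.log (q * (1 + |z.im|)) :=
        Real.log_nonneg (by nlinarith [abs_nonneg z.im])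
      refine (norm_sub_le _ _).trans ?_
      rw [norm_neg]
      calc _ ≤ (C₁ + 2) * (1 + Real.log (q * (1 + |z.im|))) := by nlinarith
        _ ≤ _ := by rw [mul_assoc, mul_assoc, ← mul_assoc (1 + δ⁻¹)]; gcongr)
    (fun z hz => by
      have hz1 : 1 < z.re := by linarith
      have hne : z ≠ 1 := fun e => by norm_num [e] at hz
      have e1 : LSeries (fun n => χ n * (Λ n : ℂ)) z = -logDeriv (LFunction χ) z := by
        rw [logDeriv_apply, deriv_LFunction_eq_deriv_LSeries χ hz1, LFunction_eq_LSeries χ hz1,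
          ← neg_div]
        exact LSeries_twist_vonMangoldt_eq χ hz1
      rw [e1, hc]
      split_ifs with h1
      · subst h1
        have e2 : gc (1 : DirichletCharacter ℂ q) =ᶠ[𝓝 z]
            fun z => (z - 1) / z * LFunction (1 : DirichletCharacter ℂ q) z := by
          filter_upwards [isOpen_ne.mem_nhds hne] with w hw using gc_one hw
        have h0 := hz0 z (by linarith)
        have h2 := sub_ne_zero.2 hne
        rw [logDeriv_congr_nhds e2 |>.eq_of_nhds,
          logDeriv_mul (f := fun z => (z - 1) / z) z (div_ne_zero h2 h0) (h q 1 z (by linarith) (Or.inr hne)) (by fun_prop (disch := assumption))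
          (differentiableAt_LFunction _ z (Or.inl hne)),
          logDeriv_div (f := fun z => z - 1) (g := fun z => z) z h2 h0 (by fun_prop) (by fun_prop)]
        simp [logDeriv_apply]
        ring
      · rw [gc_ne h1]; simp) y hy
  have h1 : (y : ℝ) ^ (11 / 12 + δ + 2 * δ) ≤ (y : ℝ) ^ θ := by gcongr; linarith
  have h2 : 1 ≤ (y : ℝ) ^ θ := Real.one_le_rpow hy1 (by linarith)
  refine key.trans ?_
  calc _ ≤ C₂ * ((C₁ + 2) * (1 + δ⁻¹) * (1 + Real.log q)) * (y : ℝ) ^ θ +
        (1 + Real.log q) * (y : ℝ) ^ θ := by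
        gcongr
        nlinarith
    _ = _ := by ring

/-- twisted sums of the Moebius function -/
theorem mu_char (h : QRH) {θ ε : ℝ} (hθ : 11 / 12 < θ) (hε : 0 < ε) : ∃ C : ℝ, 0 ≤ C ∧
    ∀ (q : ℕ) [NeZero q] (χ : DirichletCharacter ℂ q) (y : ℕ), 1 ≤ y →
      ‖∑ n ∈ Finset.Icc 1 y, χ n * (moebius n : ℂ)‖ ≤ C * (q : ℝ) ^ ε * (y : ℝ) ^ θ := by
  set δ := min (min ((θ - 11 / 12) / 3) (1 / 12)) ε with hδ
  have hδ0 : 0 < δ := lt_min (lt_min (by linarith) (by norm_num)) hε
  have hδ1 : δ ≤ 1 / 12 := (min_le_left _ _).trans (min_le_right _ _)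
  have hδ2 : δ ≤ (θ - 11 / 12) / 3 := (min_le_left _ _).trans (min_le_left _ _)
  have hδ3 : δ ≤ ε := min_le_right _ _
  obtain ⟨C₁, hC₁, H⟩ := log_bound (A := cA) hδ0 hδ1 hδ0 (by linarith [cA_ge])
  obtain ⟨C₂, hC₂, P⟩ := perron hδ0 (by linarith)
  refine ⟨C₂ * C₁, by positivity, fun q _ χ y hy => ?_⟩
  have hq : (1 : ℝ) ≤ q := by exact_mod_cast NeZero.one_le
  have hy1 : (1 : ℝ) ≤ y := by exact_mod_cast hy
  have G := good h χ
  have hz0 : ∀ z : ℂ, 11 / 12 < z.re → z ≠ 0 := fun z hz e => by norm_num [e] at hz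
  have a1 : LSeriesSummable (fun n => χ n * (moebius n : ℂ)) (2 : ℝ) :=
    LSeriesSummable_of_bounded_of_one_lt_re (m := 1) (fun n _ => norm_mu_le χ n) (by simp)
  set F : ℂ → ℂ := fun z => (if χ = 1 then (z - 1) / z else 1) * (gc χ z)⁻¹ with hF
  have a2 : ∀ z : ℂ, 11 / 12 + δ ≤ z.re → z.re ≤ 2 → DifferentiableAt ℂ F z := fun z h1 _ => by
    have h2 : 11 / 12 < z.re := by linarith
    have h3 := hz0 z h2
    refine DifferentiableAt.mul ?_ ((G.hd.differentiableAt
      ((isOpen_lt continuous_const continuous_re).mem_nhds h2)).inv (G.h0 z h2))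
    split_ifs
    · fun_prop (disch := assumption)
    · fun_prop
  have a3 : ∀ z : ℂ, 11 / 12 + δ ≤ z.re → z.re ≤ 2 →
      ‖F z‖ ≤ C₁ * (q : ℝ) ^ δ * (1 + |z.im|) ^ δ := fun z h1 h2 => by
    have h3 := (H _ _ G z h1 h2).2.1
    rw [Real.mul_rpow (by positivity) (by positivity), ← mul_assoc] at h3
    rw [hF, norm_mul]
    refine (mul_le_of_le_one_left (norm_nonneg _) ?_).trans h3
    split_ifs
    · exact norm_ratio_le (by linarith)
    · simp
  have a4 : ∀ z : ℂ, z.re = 2 → LSeries (fun n => χ n * (moebius n : ℂ)) z =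
      F z + 0 * (1 / (z - 1)) := fun z hz => by
    have hne : z ≠ 1 := fun e => by norm_num [e] at hz
    rw [LSeries_mu χ (by linarith), zero_mul, add_zero, hF]
    dsimp only
    split_ifs with h1
    · subst h1
      rw [gc_one hne, mul_inv,
        mul_inv_cancel_left₀ (div_ne_zero (sub_ne_zero.2 hne) (hz0 z (by linarith)))]
    · rw [gc_ne h1, one_mul]
  have key := P _ F 0 _ _ a1 (by linarith) (by linarith) a2 a3 a4 y hy
  simp only [zero_mul, sub_zero, norm_zero, add_zero] at key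
  refine key.trans ?_
  have h1 : (y : ℝ) ^ (11 / 12 + δ + 2 * δ) ≤ (y : ℝ) ^ θ :=
    Real.rpow_le_rpow_of_exponent_le hy1 (by linarith)
  have h2 : (q : ℝ) ^ δ ≤ (q : ℝ) ^ ε := Real.rpow_le_rpow_of_exponent_le hq hδ3
  rw [← mul_assoc]
  gcongr

end Vale.Agent.N026
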