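import Vale.Agent.N026.Poi
import Mathlib.NumberTheory.NumberField.InfinitePlace.Basic

/-!
P026, extension to number fields, part 2: real coordinates on a number field of any signature
and Poisson summation over a fractional ideal.
-/

namespace Vale.Agent.N026

open NumberField NumberField.InfinitePlace Complex Finset Module Matrix
open scoped Real nonZeroDivisors Classical
open Vale.Agent.P267.H775 Vale.Agent.P016Z.Pois

variable {K : Type} [Field K] [NumberField K]

/-- complex conjugation on the embeddings -/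
noncomputable def cj (K : Type) [Field K] : (K →+* ℂ) ≃ (K →+* ℂ) :=
  (ComplexEmbedding.involutive_conjugate K).toPerm

omit [NumberField K] in
theorem cj_apply (φ : K →+* ℂ) (x : K) : cj K φ x = (starRingEnd ℂ) (φ x) := rfl

omit [NumberField K] in
theorem mk_cj (φ : K →+* ℂ) : mk (cj K φ) = mk φ := mk_conjugate_eq φ

/-- the real coordinates `Re φ x + Im φ x` -/
noncomputable def co (x : K) (φ : K →+* ℂ) : ℝ := (φ x).re + (φ x).im

omit [NumberField K] in
theorem co_cj (x : K) (φ : K →+* ℂ) : co x (cj K φ) = (φ x).re - (φ x).im := by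
  simp [co, cj_apply, sub_eq_add_neg]

theorem sum_anti (F : (K →+* ℂ) → ℝ) (h : ∀ φ, F (cj K φ) = -F φ) : ∑ φ, F φ = 0 := by
  have h1 := (cj K).sum_comp F
  simp only [h, sum_neg_distrib] at h1
  linarith

theorem sum_mk (F : InfinitePlace K → ℝ) : ∑ φ : K →+* ℂ, F (mk φ) = ∑ w, mult w * F w := by
  rw [← sum_fiberwise univ (fun φ : K →+* ℂ => mk φ)]
  refine sum_congr rfl fun w _ => ?_
  rw [sum_congr rfl (g := fun _ => F w) fun φ hφ => by rw [(mem_filter.1 hφ).2], sum_const,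
    card_filter_mk_eq, nsmul_eq_mul]

theorem trace_co (x y : K) :
    ∑ φ, co x (cj K φ) * co y φ = ((Algebra.trace ℚ K (x * y) : ℚ) : ℝ) := by
  have h := trace_eq_sum_embeddings ℂ (K := ℚ) (L := K) (x := x * y)
  rw [← (RingHom.equivRatAlgHom K ℂ).sum_comp (fun φ => φ (x * y))] at h
  have h2 : ∑ φ : K →+* ℂ, (RingHom.equivRatAlgHom K ℂ φ) (x * y) = ∑ φ : K →+* ℂ, φ (x * y) := rfl
  rw [h2, eq_ratCast, ← ofReal_ratCast] at h
  have h3 := congrArg re h
  rw [ofReal_re, re_sum] at h3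
  have h4 := sum_anti (fun φ : K →+* ℂ => (φ x).re * (φ y).im - (φ x).im * (φ y).re) fun φ => by
    simp only [cj_apply, conj_re, conj_im]; ring
  rw [h3, ← add_zero (∑ φ : K →+* ℂ, (φ (x * y)).re), ← h4, ← sum_add_distrib]
  refine sum_congr rfl fun φ _ => ?_
  rw [co_cj, co, map_mul, mul_re]
  ring

/-- the norm -/
noncomputable def nq (x : K) : ℝ := ((Algebra.norm ℚ x : ℚ) : ℝ)

/-- the product of the real conjugates -/
noncomputable def pre (x : K) : ℝ := ∏ φ with ComplexEmbedding.IsReal φ, co x φ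

omit [NumberField K] in
theorem im_of_real {φ : K →+* ℂ} (h : ComplexEmbedding.IsReal φ) (x : K) : (φ x).im = 0 := by
  rw [← h.coe_embedding_apply, ofReal_im]

theorem nq_eq {x : K} (hx : x ≠ 0) : ∃ Q : ℝ, 0 < Q ∧ nq x = Q * pre x := by
  have h := Algebra.norm_eq_prod_embeddings ℚ ℂ x
  rw [← (RingHom.equivRatAlgHom K ℂ).prod_comp (fun φ => φ x)] at h
  have h2 : ∏ φ : K →+* ℂ, (RingHom.equivRatAlgHom K ℂ φ) x = ∏ φ : K →+* ℂ, φ x := rfl
  rw [h2, eq_ratCast, ← ofReal_ratCast,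
    ← prod_filter_mul_prod_filter_not univ (fun φ : K →+* ℂ => ComplexEmbedding.IsReal φ)] at h
  have h0 : ∀ φ : K →+* ℂ, ((‖φ x‖ : ℝ) : ℂ) ≠ 0 := fun φ => by simpa using hx
  have h3 : ∏ φ : K →+* ℂ with ¬ ComplexEmbedding.IsReal φ, φ x / (‖φ x‖ : ℝ) = 1 := by
    refine prod_involution (fun φ _ => cj K φ) (fun φ _ => ?_) (fun φ hφ _ => ?_)
      (fun φ hφ => ?_) fun φ _ => ComplexEmbedding.involutive_conjugate K φ
    · rw [cj_apply, norm_conj, div_mul_div_comm, mul_conj, normSq_eq_norm_sq, ← sq, ofReal_pow,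
        div_self (pow_ne_zero _ (h0 φ))]
    · exact fun h => (mem_filter.1 hφ).2 (ComplexEmbedding.isReal_iff.2 h)
    · exact mem_filter.2 ⟨mem_univ _, fun h =>
        (mem_filter.1 hφ).2 (ComplexEmbedding.isReal_conjugate_iff.1 h)⟩
  rw [prod_div_distrib, div_eq_one_iff_eq (prod_ne_zero_iff.2 fun φ _ => h0 φ)] at h3
  refine ⟨∏ φ : K →+* ℂ with ¬ ComplexEmbedding.IsReal φ, ‖φ x‖,
    prod_pos fun φ _ => by simpa using hx, ?_⟩
  apply ofReal_injective
  rw [nq, h, h3, mul_comm, pre]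
  push_cast
  congr 1
  refine prod_congr rfl fun φ hφ => ?_
  have := im_of_real (mem_filter.1 hφ).2 x
  apply Complex.ext <;> simp [co, this]

/-- the vector of the `mult(w) log |x|_w` -/
noncomputable def lg (x : K) : InfinitePlace K → ℝ := fun w => mult w * Real.log (w x)

omit [NumberField K] in
theorem lg_mul {x y : K} (hx : x ≠ 0) (hy : y ≠ 0) : lg (x * y) = lg x + lg y := by
  ext w
  simp only [lg, map_mul, Pi.add_apply]
  rw [Real.log_mul (pos_iff.2 hx).ne' (pos_iff.2 hy).ne', mul_add]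

theorem sum_lg {x : K} (hx : x ≠ 0) : ∑ w, lg x w = Real.log |nq x| := by
  have h := prod_eq_abs_norm x
  rw [Rat.cast_abs] at h
  rw [nq, ← h, Real.log_prod fun w _ => pow_ne_zero _ (pos_iff.2 hx).ne']
  simp only [lg, Real.log_pow]

/-- the exponents -/
noncomputable def dd (δ : ℕ) (φ : K →+* ℂ) : ℕ := if ComplexEmbedding.IsReal φ then δ else 0

/-- the exponents, on places -/
noncomputable def dw (δ : ℕ) (w : InfinitePlace K) : ℝ := if w.IsReal then δ else 0

omit [NumberField K] in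
theorem dd_le {δ : ℕ} (hδ : δ ≤ 1) (φ : K →+* ℂ) : dd δ φ ≤ 1 := by
  unfold dd; split_ifs <;> omega

omit [NumberField K] in
theorem dd_cj (δ : ℕ) (φ : K →+* ℂ) : dd δ (cj K φ) = dd δ φ := by
  unfold dd
  exact if_congr ComplexEmbedding.isReal_conjugate_iff rfl rfl

/-- the scales -/
noncomputable def rr (y : InfinitePlace K → ℝ) (φ : K →+* ℂ) : ℝ :=
  Real.exp (y (mk φ) / mult (mk φ))

omit [NumberField K] in
theorem rr_pos (y : InfinitePlace K → ℝ) (φ : K →+* ℂ) : 0 < rr y φ := Real.exp_pos _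

theorem prod_rr (y : InfinitePlace K → ℝ) : ∏ φ, rr y φ = Real.exp (∑ w, y w) := by
  simp only [rr, ← Real.exp_sum]
  rw [sum_mk (fun w => y w / mult w)]
  congr 1
  exact sum_congr rfl fun w _ => mul_div_cancel₀ _ mult_coe_ne_zero

/-- the test function at a field element -/
noncomputable def Tf (δ : ℕ) (y : InfinitePlace K → ℝ) (x : K) : ℝ :=
  Ph (dd δ) fun φ => rr y φ * co x φ

/-- the absolute value of the test function in logarithmic coordinates -/
noncomputable def Ps (δ : ℕ) (z : InfinitePlace K → ℝ) : ℝ :=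
  Real.exp (∑ w, (dw δ w * z w - mult w * π * Real.exp (2 / mult w * z w)))

theorem Ps_pos (δ : ℕ) (z : InfinitePlace K → ℝ) : 0 < Ps δ z := Real.exp_pos _

theorem Tf_eq (δ : ℕ) (y : InfinitePlace K → ℝ) (x : K) : ∃ Q : ℝ, 0 < Q ∧
    Tf δ y x = pre x ^ δ * Q := by
  refine ⟨(∏ φ with ComplexEmbedding.IsReal φ, rr y φ) ^ δ *
    ∏ φ, Real.exp (-π * (rr y φ * co x φ) ^ 2),
    mul_pos (pow_pos (prod_pos fun φ _ => rr_pos y φ) _) (prod_pos fun φ _ => Real.exp_pos _), ?_⟩
  rw [Tf, Ph, ← mul_assoc, ← mul_pow, pre, ← prod_mul_distrib, ← prod_pow, prod_filter,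
    ← prod_mul_distrib]
  refine prod_congr rfl fun φ _ => ?_
  rw [hg, dd]
  split_ifs
  · rw [mul_comm (co x φ)]
  · rw [pow_zero]

theorem abs_Tf (δ : ℕ) (y : InfinitePlace K → ℝ) {x : K} (hx : x ≠ 0) :
    |Tf δ y x| = Ps δ (y + lg x) := by
  have hw : ∀ w : InfinitePlace K, 0 < w x := fun w => pos_iff.2 hx
  have h1 : ∀ w : InfinitePlace K, Real.exp ((y + lg x) w / mult w) =
      Real.exp (y w / mult w) * w x := fun w => by
    rw [Pi.add_apply, add_div, lg, mul_div_cancel_left₀ _ mult_coe_ne_zero, Real.exp_add,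
      Real.exp_log (hw w)]
  have h2 : ∑ φ, (rr y φ * co x φ) ^ 2 =
      ∑ w, mult w * Real.exp (2 / mult w * (y + lg x) w) := by
    have h3 := sum_anti (fun φ : K →+* ℂ => rr y φ ^ 2 * (2 * (φ x).re * (φ x).im)) fun φ => by
      simp only [rr, mk_cj, cj_apply, conj_re, conj_im]; ring
    rw [← sum_mk (fun w => Real.exp (2 / mult w * (y + lg x) w)),
      ← add_zero (∑ φ : K →+* ℂ, Real.exp _), ← h3, ← sum_add_distrib]
    refine sum_congr rfl fun φ _ => ?_
    rw [show 2 / (mult (mk φ) : ℝ) * (y + lg x) (mk φ) =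
      (2 : ℕ) * ((y + lg x) (mk φ) / mult (mk φ)) by push_cast; ring, Real.exp_nat_mul, h1,
      InfinitePlace.apply, mul_pow (Real.exp _), ← normSq_eq_norm_sq, normSq_apply, co, rr]
    ring
  have h4 : ∀ φ : K →+* ℂ, |rr y φ * co x φ| ^ dd δ φ =
      Real.exp (dw δ (mk φ) * ((y + lg x) (mk φ) / mult (mk φ))) := fun φ => by
    unfold dd dw
    by_cases h : ComplexEmbedding.IsReal φ
    · rw [if_pos h, if_pos (isReal_mk_iff.2 h), Real.exp_nat_mul, h1, abs_mul,
        abs_of_pos (rr_pos y φ), InfinitePlace.apply, co, im_of_real h, add_zero,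
        abs_re_eq_norm.2 (im_of_real h x), rr]
    · rw [if_neg h, if_neg (fun h' => h (isReal_mk_iff.1 h')), pow_zero, zero_mul, Real.exp_zero]
  rw [Tf, Ph, abs_prod]
  simp only [hg, abs_mul (_ ^ _), abs_pow, h4, abs_of_pos (Real.exp_pos _), ← Real.exp_add,
    ← Real.exp_sum]
  rw [sum_add_distrib, ← mul_sum, h2,
    sum_mk (fun w => dw δ w * ((y + lg x) w / mult w)), Ps, mul_sum, ← sum_add_distrib]
  congr 1
  refine sum_congr rfl fun w _ => ?_
  have := mult_coe_ne_zero (w := w)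
  field_simp
  ring

section basis

variable (b : Basis (K →+* ℂ) ℚ K)

/-- the matrix of the scaled coordinates -/
noncomputable def mat (y : InfinitePlace K → ℝ) : Matrix (K →+* ℂ) (K →+* ℂ) ℝ :=
  fun φ i => rr y φ * co (b i) φ

/-- the dual matrix -/
noncomputable def mat' (y : InfinitePlace K → ℝ) : Matrix (K →+* ℂ) (K →+* ℂ) ℝ :=
  fun φ i => rr (-y) φ * co (b.traceDual i) (cj K φ)

theorem mat_inv (y : InfinitePlace K → ℝ) : (mat' b y)ᵀ * mat b y = 1 := by
  ext i k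
  have h : ∀ φ, rr (-y) φ * rr y φ = 1 := fun φ => by
    simp only [rr, ← Real.exp_add, Pi.neg_apply, neg_div, neg_add_cancel, Real.exp_zero]
  simp only [Matrix.mul_apply, transpose_apply, mat, mat']
  simp only [mul_mul_mul_comm (rr (-y) _), h, one_mul]
  rw [trace_co, Basis.trace_traceDual_mul, Matrix.one_apply]
  by_cases hik : i = k
  · simp [hik]
  · simp [hik, Ne.symm hik]

theorem det_mat_ne (y : InfinitePlace K → ℝ) : (mat b y).det ≠ 0 := by
  have h := congrArg det (mat_inv b y)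
  rw [det_mul, det_one] at h
  exact right_ne_zero_of_mul_eq_one h

theorem det_mat (y : InfinitePlace K → ℝ) :
    |(mat b y).det| = Real.exp (∑ w, y w) * |(mat b 0).det| := by
  have h : mat b y = diagonal (rr y) * mat b 0 := by
    ext φ i
    simp [diagonal_mul, mat, rr]
  rw [h, det_mul, det_diagonal, prod_rr, abs_mul, abs_of_pos (Real.exp_pos _)]

theorem co_sum (c : (K →+* ℂ) → ℚ) (v : (K →+* ℂ) → K) (φ : K →+* ℂ) :
    co (∑ i, (c i : K) * v i) φ = ∑ i, co (v i) φ * c i := by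
  simp only [co, map_sum, map_mul, map_ratCast, re_sum, im_sum, ← sum_add_distrib]
  refine sum_congr rfl fun i _ => ?_
  rw [← ofReal_ratCast, re_ofReal_mul, im_ofReal_mul]
  ring

theorem mat_mulVec (y : InfinitePlace K → ℝ) (a : K) (n : (K →+* ℂ) → ℤ) :
    mat b y *ᵥ ((fun i => ((b.repr a i : ℚ) : ℝ)) + toR n) =
      fun φ => rr y φ * co (a + lat b n) φ := by
  ext φ
  have h : a + lat b n = ∑ i, ((b.repr a i + n i : ℚ) : K) * b i := by
    conv_lhs => rw [← b.sum_repr a, lat, ← sum_add_distrib]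
    refine sum_congr rfl fun i _ => ?_
    rw [Rat.smul_def]
    push_cast
    ring
  rw [h, co_sum]
  simp only [mulVec, dotProduct, mat, Pi.add_apply, toR_apply, mul_sum, mul_assoc]
  push_cast
  rfl

theorem abs_dual (δ : ℕ) (y : InfinitePlace K → ℝ) (k : (K →+* ℂ) → ℤ) :
    Ph (dd δ) (((mat b y)⁻¹)ᵀ *ᵥ toR k) = Tf δ (-y) (lat b.traceDual k) := by
  rw [Matrix.inv_eq_left_inv (mat_inv b y), transpose_transpose, Tf, Ph, Ph,
    ← (cj K).prod_comp (fun φ => hg (dd δ φ) (rr (-y) φ * co (lat b.traceDual k) φ))]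
  refine prod_congr rfl fun φ _ => ?_
  have h : lat b.traceDual k = ∑ i, ((k i : ℚ) : K) * b.traceDual i := by simp [lat]
  rw [dd_cj, h, co_sum]
  congr 1
  simp only [mulVec, dotProduct, mat', toR_apply, mul_sum, mul_assoc, rr, mk_cj]
  push_cast
  rfl

end basis

/-- a basis of a fractional ideal indexed by the embeddings -/
noncomputable def bs (A : FI K) : Basis (K →+* ℂ) ℚ K :=
  (basisOfFractionalIdeal K A).reindex (Fintype.equivOfCardEq (by
    rw [← finrank_eq_card_basis (basisOfFractionalIdeal K A), Embeddings.card]))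

theorem mem_bs (A : FI K) (x : K) : x ∈ Submodule.span ℤ (Set.range (bs A)) ↔
    x ∈ (A : FractionalIdeal (𝓞 K)⁰ K) := by
  rw [bs, Basis.range_reindex]
  exact mem_span_basisOfFractionalIdeal K

theorem summable_Tf {δ : ℕ} (hδ : δ ≤ 1) (A : FI K) (y : InfinitePlace K → ℝ) (a : K) :
    Summable fun x : El A => Tf δ y (a + x) := by
  rw [← (latE (bs A) A (mem_bs A)).summable_iff]
  have h := summable_Ph (dd_le hδ) (det_mat_ne (bs A) y) fun i => (((bs A).repr a i : ℚ) : ℝ)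
  simp only [mat_mulVec] at h
  exact h

/-- **Poisson summation** over a fractional ideal. -/
theorem poisson_Tf {δ : ℕ} (hδ : δ ≤ 1) (A : FI K) : ∃ v : ℝ, 0 ≤ v ∧ ∃ c : ℂ, ‖c‖ = 1 ∧
    ∀ (y : InfinitePlace K → ℝ) (a : K), ∃ e : K → ℂ, e 0 = 1 ∧ (∀ ξ, ‖e ξ‖ = 1) ∧
    HasSum (fun ξ : El (dl A) => (v * Real.exp (-∑ w, y w) : ℝ) * (c * (Tf δ (-y) (ξ : K) : ℂ)) *
        e ξ) ((∑' x : El A, Tf δ y (a + x) : ℝ) : ℂ) := by
  refine ⟨|(mat (bs A) 0).det|⁻¹, by positivity, ∏ φ : K →+* ℂ, (-I) ^ dd δ φ, by simp,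
    fun y a => ⟨fun ξ => cexp (2 * π * I * ((Algebra.trace ℚ K (ξ * a) : ℚ) : ℝ)), by simp,
      fun ξ => ?_, ?_⟩⟩
  · simp only
    rw [show (2 * π * I * ((Algebra.trace ℚ K (ξ * a) : ℚ) : ℝ) : ℂ) =
      ((2 * π * (Algebra.trace ℚ K (ξ * a) : ℚ) : ℝ) : ℂ) * I by push_cast; ring,
      norm_exp_ofReal_mul_I]
  have h := poisson_Ph (dd_le hδ) (det_mat_ne (bs A) y) fun i => (((bs A).repr a i : ℚ) : ℝ)
  rw [det_mat] at h
  simp only [mat_mulVec, abs_dual] at h
  rw [← (latE _ (dl A) (dual_span _ A (mem_bs A))).hasSum_iff, ← (latE _ A (mem_bs A)).tsum_eq]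
  refine h.congr_fun fun k => ?_
  simp only [Function.comp_apply, latE_apply, Real.exp_neg, mul_inv, mul_comm (Real.exp _)⁻¹]
  congr 1
  rw [chr]
  congr 2
  rw [lat, sum_mul, map_sum]
  push_cast
  refine sum_congr rfl fun i _ => ?_
  have h1 := (bs A).traceDual.traceDual_repr_apply a i
  rw [Basis.traceDual_traceDual, Algebra.traceForm_apply, mul_comm] at h1
  rw [mul_assoc, ← zsmul_eq_mul, map_zsmul, zsmul_eq_mul, h1]
  push_cast
  rfl

end Vale.Agent.N026
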