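import Vale.Agent.N026.App

/-!
P026, consequences of the zero-free half-plane, part 3: primes and the Moebius function in
progressions, uniformly in the modulus, and the size of `L(1, χ)`.
-/

namespace Vale.Agent.N026

open Complex Set MeasureTheory DirichletCharacter ArithmeticFunction Filter Topology
open Vale.Agent.P026.H392 Vale.Agent.P005Z.PT
open scoped Real Classical

theorem le_totient_sq (n : ℕ) : n ≤ (if 2 ∣ n then 2 else 1) * n.totient ^ 2 := by
  induction n using Nat.recOnPosPrimePosCoprime with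
  | zero => simp
  | one => simp
  | prime_pow p k hp hk =>
    obtain ⟨j, rfl⟩ := Nat.exists_eq_succ_of_ne_zero hk.ne'
    rw [Nat.totient_prime_pow_succ hp, pow_succ, mul_pow]
    have h1 : p ^ j ≤ (p ^ j) ^ 2 := Nat.le_self_pow two_ne_zero _
    by_cases h2 : p = 2
    · subst h2
      rw [if_pos (dvd_mul_left _ _)]
      simp only [Nat.add_one_sub_one, one_pow, mul_one]
      omega
    · have h3 : 3 ≤ p := by have := hp.two_le; omega
      obtain ⟨r, rfl⟩ := Nat.exists_eq_add_of_le' h3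
      have h4 : r + 3 ≤ (r + 3 - 1) ^ 2 := by
        rw [show r + 3 - 1 = r + 2 from rfl]; nlinarith
      exact (Nat.mul_le_mul h1 h4).trans (Nat.le_mul_of_pos_left _ (by split_ifs <;> norm_num))
  | coprime a b ha hb hab iha ihb =>
    rw [Nat.totient_mul hab, mul_pow]
    refine (Nat.mul_le_mul iha ihb).trans ?_
    rw [mul_mul_mul_comm]
    refine Nat.mul_le_mul_right _ ?_
    by_cases h1 : 2 ∣ a
    · have h2 : ¬ 2 ∣ b := fun h2 => by
        have := Nat.eq_one_of_dvd_coprimes hab h1 h2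
        omega
      simp [h1, h2, h1.mul_right]
    · by_cases h2 : 2 ∣ b
      · simp [h1, h2, h2.mul_left]
      · rw [if_neg h1, if_neg h2]
        split_ifs <;> norm_num

theorem ortho {q : ℕ} [NeZero q] {a : ℕ} (ha : a.Coprime q) (f : ℕ → ℂ) (S : Finset ℕ) :
    (q.totient : ℂ) * ∑ n ∈ S with n ≡ a [MOD q], f n =
      ∑ χ : DirichletCharacter ℂ q, χ (a : ZMod q)⁻¹ * ∑ n ∈ S, χ n * f n := by
  simp only [Finset.mul_sum, ← mul_assoc]
  rw [Finset.sum_comm, Finset.sum_filter]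
  refine Finset.sum_congr rfl fun n _ => ?_
  rw [← Finset.sum_mul, sum_char_inv_mul_char_eq ℂ ((ZMod.isUnit_iff_coprime a q).2 ha)]
  simp only [ZMod.natCast_eq_natCast_iff, Nat.ModEq.comm (a := a), ite_mul, zero_mul]

theorem prog_le {q : ℕ} [NeZero q] {a : ℕ} (ha : a.Coprime q) (f : ℕ → ℂ) (S : Finset ℕ) (c : ℂ)
    {B : ℝ} (h : ∀ χ : DirichletCharacter ℂ q,
      ‖∑ n ∈ S, χ n * f n - (if χ = 1 then 1 else 0) * c‖ ≤ B) :
    ‖∑ n ∈ S with n ≡ a [MOD q], f n - c / q.totient‖ ≤ B := by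
  have h0 : (0 : ℝ) < q.totient := by exact_mod_cast Nat.totient_pos.2 (NeZero.pos q)
  have h0' : (q.totient : ℂ) ≠ 0 := by exact_mod_cast h0.ne'
  have hu : IsUnit (a : ZMod q)⁻¹ :=
    IsUnit.of_mul_eq_one _ (ZMod.inv_mul_of_unit _ ((ZMod.isUnit_iff_coprime a q).2 ha))
  have e : (q.totient : ℂ) * (∑ n ∈ S with n ≡ a [MOD q], f n - c / q.totient) =
      ∑ χ : DirichletCharacter ℂ q, χ (a : ZMod q)⁻¹ *
        (∑ n ∈ S, χ n * f n - (if χ = 1 then 1 else 0) * c) := by
    simp only [mul_sub, Finset.sum_sub_distrib, ortho ha, mul_div_cancel₀ _ h0']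
    simp [MulChar.one_apply hu]
  have h1 := congrArg norm e
  rw [norm_mul, Complex.norm_natCast] at h1
  refine le_of_mul_le_mul_left (h1.le.trans ((norm_sum_le _ _).trans ?_)) h0
  rw [← card_eq_totient_of_hasEnoughRootsOfUnity ℂ q, Nat.card_eq_fintype_card, ← nsmul_eq_mul,
    ← Finset.card_univ]
  refine Finset.sum_le_card_nsmul _ _ _ fun χ _ => ?_
  rw [norm_mul]
  exact (mul_le_of_le_one_left (norm_nonneg _) (χ.norm_le_one _)).trans (h χ)

theorem prog_large {q a y : ℕ} (hy : y < q) (f : ℕ → ℝ) {B : ℝ} (hB : 0 ≤ B)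
    (hf : ∀ n ≤ y, |f n| ≤ B) : |∑ n ∈ Finset.Icc 1 y with n ≡ a [MOD q], f n| ≤ B := by
  refine (Finset.abs_sum_le_sum_abs _ _).trans ((Finset.sum_le_card_nsmul _ _ B fun n hn =>
    hf n (Finset.mem_Icc.1 (Finset.mem_filter.1 hn).1).2).trans ?_)
  have : (Finset.filter (fun n => n ≡ a [MOD q]) (Finset.Icc 1 y)).card ≤ 1 := by
    refine Finset.card_le_one.2 fun n hn m hm => ?_
    rw [Finset.mem_filter, Finset.mem_Icc] at hn hm
    exact (hn.2.trans hm.2.symm).eq_of_lt_of_lt (by omega) (by omega)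
  rw [nsmul_eq_mul]
  exact mul_le_of_le_one_left hB (by exact_mod_cast this)

/-- **The prime number theorem in progressions**, uniformly in the modulus. -/
theorem psi_prog (h : QRH) {θ : ℝ} (hθ : 11 / 12 < θ) : ∃ C : ℝ, ∀ q a : ℕ, 0 < q →
    a.Coprime q → ∀ x : ℝ, 1 ≤ x →
      |∑ n ∈ Finset.Icc 1 ⌊x⌋₊ with n ≡ a [MOD q], Λ n - x / q.totient| ≤ C * x ^ θ := by
  set η := (θ - 11 / 12) / 2 with hη
  have hη0 : 0 < η := by rw [hη]; linarith
  obtain ⟨C, hC, H⟩ := psi_char h (θ := θ - η) (by linarith)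
  refine ⟨C * (1 + η⁻¹) + 4, fun q a hq ha x hx => ?_⟩
  have : NeZero q := ⟨hq.ne'⟩
  set y := ⌊x⌋₊ with hy
  have hy1 : 1 ≤ y := Nat.floor_pos.2 hx
  have hyx : (y : ℝ) ≤ x := Nat.floor_le (by linarith)
  have hxy : x < y + 1 := Nat.lt_floor_add_one x
  have hP : 1 ≤ x ^ θ := Real.one_le_rpow hx (by linarith)
  have hφ : (1 : ℝ) ≤ q.totient := by exact_mod_cast Nat.totient_pos.2 hq
  have hC' : 0 ≤ C * (1 + η⁻¹) * x ^ θ := by positivity
  rcases le_or_gt q y with hqy | hqy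
  · have h1 := prog_le ha (fun n => (Λ n : ℂ)) _ y (fun χ => H q χ y hy1)
    have h2 : ((∑ n ∈ Finset.Icc 1 y with n ≡ a [MOD q], Λ n - y / q.totient : ℝ) : ℂ) =
        ∑ n ∈ Finset.Icc 1 y with n ≡ a [MOD q], (Λ n : ℂ) - y / q.totient := by push_cast; rfl
    rw [← h2, norm_real, Real.norm_eq_abs] at h1
    have h3 : 1 + Real.log q ≤ (1 + η⁻¹) * x ^ η := by
      have h4 := Real.log_le_rpow_div (x := x) (by linarith) hη0
      have h5 : Real.log q ≤ Real.log x :=
        Real.log_le_log (by exact_mod_cast hq) (le_trans (by exact_mod_cast hqy) hyx)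
      have h6 : 1 ≤ x ^ η := Real.one_le_rpow hx hη0.le
      rw [div_eq_mul_inv] at h4
      nlinarith
    have h7 : C * (1 + Real.log q) * (y : ℝ) ^ (θ - η) ≤ C * (1 + η⁻¹) * x ^ θ := by
      calc _ ≤ C * ((1 + η⁻¹) * x ^ η) * x ^ (θ - η) := by gcongr; linarith
        _ = _ := by
            rw [mul_assoc, mul_assoc, ← Real.rpow_add (by linarith), add_sub_cancel, mul_assoc]
    have h8 : |(y : ℝ) / q.totient - x / q.totient| ≤ 1 := by
      rw [← sub_div, abs_div, abs_of_pos (show (0 : ℝ) < q.totient by linarith),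
        div_le_one (by linarith), abs_le]
      constructor <;> linarith
    have h9 := abs_sub_le (∑ n ∈ Finset.Icc 1 y with n ≡ a [MOD q], Λ n) (y / q.totient)
      (x / q.totient)
    nlinarith
  · have h1 := prog_large (a := a) hqy (fun n => Λ n) (B := 2 * x ^ θ) (by positivity)
      fun n hn => by
        have h2 := Real.log_le_rpow_div (Nat.cast_nonneg n) (show (0 : ℝ) < θ by linarith)
        have h3 : (n : ℝ) ^ θ ≤ x ^ θ := by
          gcongr
          exact le_trans (by exact_mod_cast hn) hyx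
        rw [abs_of_nonneg vonMangoldt_nonneg]
        refine vonMangoldt_le_log.trans (h2.trans ?_)
        rw [div_le_iff₀ (by linarith)]
        nlinarith
    have h2 : x / q.totient ≤ 2 * x ^ θ := by
      have h3 : (q : ℝ) ≤ 2 * (q.totient : ℝ) ^ 2 := by
        have := le_totient_sq q
        have h4 : q ≤ 2 * q.totient ^ 2 := this.trans (by split_ifs <;> omega)
        exact_mod_cast h4
      have h4 : x ≤ q := hxy.le.trans (by exact_mod_cast hqy)
      have h5 : x ≤ (x ^ θ) ^ 2 := by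
        rw [← Real.rpow_natCast, ← Real.rpow_mul (by linarith)]
        simpa using Real.rpow_le_rpow_of_exponent_le hx (show 1 ≤ θ * 2 by linarith)
      rw [div_le_iff₀ (by linarith), ← sq_le_sq₀ (by linarith) (by positivity)]
      nlinarith [mul_le_mul h5 (h4.trans h3) (by linarith) (by positivity)]
    have h3 : 0 ≤ x / q.totient := by positivity
    have h9 := abs_sub (∑ n ∈ Finset.Icc 1 y with n ≡ a [MOD q], Λ n) (x / q.totient)
    rw [abs_of_nonneg h3] at h9
    nlinarith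

/-- **The Moebius function in progressions**, uniformly in the modulus. -/
theorem mu_prog (h : QRH) {θ : ℝ} (hθ : 11 / 12 < θ) : ∃ C : ℝ, ∀ q a : ℕ, 0 < q →
    a.Coprime q → ∀ x : ℝ, 1 ≤ x →
      |∑ n ∈ Finset.Icc 1 ⌊x⌋₊ with n ≡ a [MOD q], (moebius n : ℝ)| ≤ C * x ^ θ := by
  set η := (θ - 11 / 12) / 2 with hη
  have hη0 : 0 < η := by rw [hη]; linarith
  obtain ⟨C, hC, H⟩ := mu_char h (θ := θ - η) (by linarith) hη0
  refine ⟨C + 1, fun q a hq ha x hx => ?_⟩
  have : NeZero q := ⟨hq.ne'⟩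
  set y := ⌊x⌋₊ with hy
  have hy1 : 1 ≤ y := Nat.floor_pos.2 hx
  have hyx : (y : ℝ) ≤ x := Nat.floor_le (by linarith)
  have hP : 1 ≤ x ^ θ := Real.one_le_rpow hx (by linarith)
  rcases le_or_gt q y with hqy | hqy
  · have h1 := prog_le ha (fun n => (moebius n : ℂ)) _ 0 (fun χ => by simpa using H q χ y hy1)
    have h2 : ((∑ n ∈ Finset.Icc 1 y with n ≡ a [MOD q], (moebius n : ℝ) : ℝ) : ℂ) =
        ∑ n ∈ Finset.Icc 1 y with n ≡ a [MOD q], (moebius n : ℂ) := by push_cast; rfl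
    rw [zero_div, sub_zero, ← h2, norm_real, Real.norm_eq_abs] at h1
    have h7 : C * (q : ℝ) ^ η * (y : ℝ) ^ (θ - η) ≤ C * x ^ θ := by
      have : (q : ℝ) ≤ x := le_trans (by exact_mod_cast hqy) hyx
      calc _ ≤ C * x ^ η * x ^ (θ - η) := by gcongr; linarith
        _ = _ := by rw [mul_assoc, ← Real.rpow_add (by linarith), add_sub_cancel]
    linarith
  · have h1 := prog_large (a := a) hqy (fun n => (moebius n : ℝ)) zero_le_one
      fun n _ => by exact_mod_cast abs_moebius_le_one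
    nlinarith

theorem logDeriv_near_one (h : QRH) : ∃ K : ℝ, 0 ≤ K ∧ ∀ (q : ℕ) [NeZero q], 16 ≤ q →
    ∀ χ : DirichletCharacter ℂ q, χ ≠ 1 → ∀ σ : ℝ, σ ∈ Icc (1 : ℝ) 2 →
      ‖logDeriv (LFunction χ) σ‖ ≤ K * Real.log (Real.log q) := by
  obtain ⟨C, hC, H⟩ := psi_char h (θ := 23 / 24) (by norm_num)
  refine ⟨2 * (6 * (2 * C * Real.exp 1)) * 24, by positivity, fun q _ hq χ hχ => ?_⟩
  have hq' : (16 : ℝ) ≤ q := by exact_mod_cast hq
  have hl1 : Real.exp 1 ≤ Real.log q := by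
    have h1 : Real.log 16 = 4 * Real.log 2 := by
      rw [show (16 : ℝ) = 2 ^ 4 by norm_num, Real.log_pow]; norm_num
    linarith [Real.log_le_log (by norm_num) hq', Real.exp_one_lt_d9, Real.log_two_gt_d9]
  have he := Real.add_one_le_exp 1
  set l := Real.log (Real.log q) with hl
  have hl2 : 1 ≤ l := (Real.le_log_iff_exp_le (by linarith)).2 hl1
  set r := l⁻¹ with hr
  have hr0 : 0 < r := by positivity
  have hr1 : r ≤ 1 := inv_le_one_of_one_le₀ hl2
  have hA : ∀ y : ℕ, ‖∑ n ∈ Finset.Icc 1 y, χ n * (Λ n : ℂ)‖ ≤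
      6 * (2 * C * Real.exp 1) * (y : ℝ) ^ (1 - r / 24) := by
    intro y
    rcases Nat.eq_zero_or_pos y with rfl | hy
    · simp only [zero_lt_one, Finset.Icc_eq_empty_of_lt, Finset.sum_empty, norm_zero]; positivity
    have hy0 : (0 : ℝ) < y := by exact_mod_cast hy
    have h1 : ‖∑ n ∈ Finset.Icc 1 y, χ n * (Λ n : ℂ)‖ ≤ 6 * y := by
      have h2 := Chebyshev.psi_le_const_mul_self hy0.le
      rw [Chebyshev.psi, Nat.floor_natCast] at h2
      have h3 : Real.log 4 ≤ 2 := by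
        rw [show (4 : ℝ) = 2 ^ 2 by norm_num, Real.log_pow]
        push_cast
        linarith [Real.log_two_lt_d9]
      refine (norm_sum_le_of_le _ (n := fun n => Λ n) fun n _ => ?_).trans
        (h2.trans (by nlinarith))
      rw [norm_mul, norm_real, Real.norm_of_nonneg vonMangoldt_nonneg]
      exact mul_le_of_le_one_left vonMangoldt_nonneg (χ.norm_le_one _)
    have h2 : ‖∑ n ∈ Finset.Icc 1 y, χ n * (Λ n : ℂ)‖ ≤
        2 * C * Real.log q * (y : ℝ) ^ (23 / 24 : ℝ) := by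
      have := H q χ y hy
      rw [if_neg hχ, zero_mul, sub_zero] at this
      refine this.trans (mul_le_mul_of_nonneg_right (by nlinarith) (by positivity))
    have h3 : Real.log q ^ r = Real.exp 1 := by
      rw [Real.rpow_def_of_pos (by linarith), ← hl, hr, mul_inv_cancel₀ (by linarith)]
    set S := ‖∑ n ∈ Finset.Icc 1 y, χ n * (Λ n : ℂ)‖
    calc S = S ^ (1 - r) * S ^ r := by
          rw [← Real.rpow_add' (norm_nonneg _) (by simp), sub_add_cancel, Real.rpow_one]
      _ ≤ (6 * y) ^ (1 - r) * (2 * C * Real.log q * (y : ℝ) ^ (23 / 24 : ℝ)) ^ r := by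
          gcongr
      _ = 6 ^ (1 - r) * ((2 * C) ^ r * Real.exp 1) * (y : ℝ) ^ (1 - r / 24) := by
          rw [Real.mul_rpow (by norm_num) hy0.le, Real.mul_rpow (by positivity) (by positivity),
            Real.mul_rpow (by positivity) (by linarith), h3, ← Real.rpow_mul hy0.le,
            show 1 - r / 24 = (1 - r) + 23 / 24 * r by ring, Real.rpow_add hy0]
          ring
      _ ≤ 6 ^ (1 : ℝ) * ((2 * C) ^ (1 : ℝ) * Real.exp 1) * (y : ℝ) ^ (1 - r / 24) := by
          gcongr <;> linarith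
      _ = _ := by rw [Real.rpow_one, Real.rpow_one]
  have hmain : ∀ σ : ℝ, σ ∈ Ioc (1 : ℝ) 2 →
      ‖logDeriv (LFunction χ) σ‖ ≤ 2 * (6 * (2 * C * Real.exp 1)) * 24 * l := by
    intro σ hσ
    have hz1 : 1 < (σ : ℂ).re := by simpa using hσ.1
    have e1 : LSeries (fun n => χ n * (Λ n : ℂ)) σ = -logDeriv (LFunction χ) σ := by
      rw [logDeriv_apply, deriv_LFunction_eq_deriv_LSeries χ hz1, LFunction_eq_LSeries χ hz1,
        ← neg_div]
      exact LSeries_twist_vonMangoldt_eq χ hz1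
    have e2 := LSeries_eq_mul_integral (fun n => χ n * (Λ n : ℂ)) (r := 1 - r / 24) (by linarith)
      (s := σ) (by linarith) (LSeriesSummable_twist_vonMangoldt χ hz1)
      (Asymptotics.IsBigO.of_bound _ (Eventually.of_forall fun y =>
        (hA y).trans_eq (by rw [Real.norm_of_nonneg (by positivity)])))
    have hi : IntegrableOn (fun t : ℝ => t ^ (-1 - r / 24)) (Ioi 1) :=
      integrableOn_Ioi_rpow_of_lt (by linarith) one_pos
    have e3 : ∫ t in Ioi (1 : ℝ), t ^ (-1 - r / 24) = 24 * l := by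
      rw [integral_Ioi_rpow_of_lt (by linarith) one_pos, Real.one_rpow, hr]
      have : l ≠ 0 := by linarith
      field_simp
      ring
    rw [← norm_neg, ← e1, e2, norm_mul, norm_real, Real.norm_of_nonneg (by linarith [hσ.1]),
      mul_assoc, mul_assoc, ← e3, ← integral_const_mul]
    gcongr
    · exact hσ.2
    refine norm_integral_le_of_norm_le (hi.const_mul _) ?_
    filter_upwards [ae_restrict_mem measurableSet_Ioi] with t ht
    have ht1 : (1 : ℝ) < t := ht
    rw [norm_mul, Complex.norm_cpow_eq_rpow_re_of_pos (by linarith)]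
    calc _ ≤ 6 * (2 * C * Real.exp 1) * t ^ (1 - r / 24) * t ^ (-2 : ℝ) := by
          gcongr
          · refine (hA _).trans ?_
            gcongr
            · linarith
            · exact Nat.floor_le (by linarith)
          · exact ht1.le
          · simp only [neg_re, add_re, ofReal_re, one_re]; linarith [hσ.1]
      _ = _ := by
          rw [mul_assoc, ← Real.rpow_add (by linarith)]
          congr 2
          ring
  have hc : ContinuousOn (fun σ : ℝ => ‖logDeriv (LFunction χ) σ‖) (closure (Ioc 1 2)) := by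
    rw [closure_Ioc (by norm_num)]
    intro σ hσ
    have hd := differentiable_LFunction hχ
    have h1 : ContinuousAt (logDeriv (LFunction χ)) σ :=
      ((hd.deriv σ).div (hd σ) (h q χ σ (by simp; linarith [hσ.1]) (Or.inl hχ))).continuousAt
    exact (h1.comp continuous_ofReal.continuousAt).norm.continuousWithinAt
  intro σ hσ
  exact ContinuousWithinAt.closure_le (f := fun σ : ℝ => ‖logDeriv (LFunction χ) σ‖)
    (by rwa [closure_Ioc (by norm_num)])
    ((hc σ (by rwa [closure_Ioc (by norm_num)])).mono subset_closure) continuousWithinAt_const hmain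

theorem gronwall {f : ℂ → ℂ} {K r : ℝ} (hr : 0 ≤ r)
    (hd : ∀ σ ∈ Icc (1 : ℝ) (1 + r), DifferentiableAt ℂ f σ ∧ ‖deriv f σ‖ ≤ K * ‖f σ‖) :
    ‖f (1 + r : ℝ)‖ ≤ ‖f 1‖ * Real.exp (K * r) := by
  have h := norm_le_gronwallBound_of_norm_deriv_right_le (f := fun σ : ℝ => f σ)
    (f' := fun σ : ℝ => deriv f σ) (δ := ‖f 1‖) (K := K) (ε := 0) (a := 1) (b := 1 + r)
    (fun σ hσ => ((hd σ hσ).1.continuousAt.comp continuous_ofReal.continuousAt).continuousWithinAt)
    (fun σ hσ => (hd σ (Ico_subset_Icc_self hσ)).1.hasDerivAt.comp_ofReal.hasDerivWithinAt)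
    (by simp) (fun σ hσ => by simpa using (hd σ (Ico_subset_Icc_self hσ)).2) (1 + r)
    ⟨by linarith, le_rfl⟩
  rwa [gronwallBound_ε0, add_sub_cancel_left] at h

/-- **The size of `L(1, χ)`.** -/
theorem L_one (h : QRH) : ∃ C : ℝ, 0 < C ∧ ∀ (q : ℕ) [NeZero q], 16 ≤ q →
    ∀ χ : DirichletCharacter ℂ q, χ ≠ 1 →
      1 / (C * Real.log (Real.log q)) ≤ ‖LFunction χ 1‖ ∧
        ‖LFunction χ 1‖ ≤ C * Real.log (Real.log q) := by
  obtain ⟨K, hK, H⟩ := logDeriv_near_one h
  refine ⟨108 * Real.exp K, by positivity, fun q _ hq χ hχ => ?_⟩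
  have hq' : (16 : ℝ) ≤ q := by exact_mod_cast hq
  have hl1 : Real.exp 1 ≤ Real.log q := by
    have h1 : Real.log 16 = 4 * Real.log 2 := by
      rw [show (16 : ℝ) = 2 ^ 4 by norm_num, Real.log_pow]; norm_num
    linarith [Real.log_le_log (by norm_num) hq', Real.exp_one_lt_d9, Real.log_two_gt_d9]
  have he := Real.add_one_le_exp 1
  set l := Real.log (Real.log q) with hl
  have hl2 : 1 ≤ l := (Real.le_log_iff_exp_le (by linarith)).2 hl1
  have hr0 : 0 < l⁻¹ := by positivity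
  have hr1 : l⁻¹ ≤ 1 := inv_le_one_of_one_le₀ hl2
  have hd := differentiable_LFunction hχ
  have h0 : ∀ σ ∈ Icc (1 : ℝ) (1 + l⁻¹), LFunction χ σ ≠ 0 := fun σ hσ =>
    h q χ σ (by simp; linarith [hσ.1]) (Or.inl hχ)
  have hb : ∀ σ ∈ Icc (1 : ℝ) (1 + l⁻¹), ‖logDeriv (LFunction χ) σ‖ ≤ K * l := fun σ hσ =>
    H q hq χ hχ σ ⟨hσ.1, by linarith [hσ.2]⟩
  have e : K * l * l⁻¹ = K := mul_inv_cancel_right₀ (by linarith) _
  have g1 := gronwall (f := LFunction χ) (K := K * l) hr0.le fun σ hσ => ⟨hd σ, by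
    have := hb σ hσ
    rwa [logDeriv_apply, norm_div, div_le_iff₀ (norm_pos_iff.2 (h0 σ hσ))] at this⟩
  have g2 := gronwall (f := fun z => (LFunction χ z)⁻¹) (K := K * l) hr0.le fun σ hσ =>
    ⟨(hd σ).inv (h0 σ hσ), by
      rw [deriv_fun_inv'' (hd σ) (h0 σ hσ), show -deriv (LFunction χ) σ / LFunction χ σ ^ 2 =
        -logDeriv (LFunction χ) σ * (LFunction χ σ)⁻¹ by rw [logDeriv_apply]; ring, norm_mul,
        norm_neg]
      exact mul_le_mul_of_nonneg_right (hb σ hσ) (norm_nonneg _)⟩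
  rw [e] at g1 g2
  have hz1 : 1 < ((1 + l⁻¹ : ℝ) : ℂ).re := by rw [ofReal_re]; linarith
  have hζ : ‖riemannZeta ((1 + l⁻¹ : ℝ) : ℂ)‖ ≤ 108 * l := by
    have h1 := zeta1_le (z := ((1 + l⁻¹ : ℝ) : ℂ)) (by linarith)
    rw [zeta1_eq (fun e => by rw [e] at hz1; simp at hz1), norm_mul, norm_real,
      show ((1 + l⁻¹ : ℝ) : ℂ) - 1 = (l⁻¹ : ℝ) by push_cast; ring, norm_real,
      Real.norm_of_nonneg hr0.le, Real.norm_of_nonneg (by linarith),
      inv_mul_le_iff₀ (by linarith)] at h1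
    refine h1.trans ?_
    rw [mul_comm 108]
    gcongr
    nlinarith
  have h1 := norm_LFunction_ge χ hz1
  have h2 : ‖LFunction χ ((1 + l⁻¹ : ℝ) : ℂ)‖ ≤ 108 * l := by
    rw [LFunction_eq_LSeries χ hz1]
    refine (norm_LSeries_le (g := fun _ => 1) (fun n => χ.norm_le_one _)
      (by rw [ofReal_re]; exact LSeriesSummable_one_iff.2 hz1)).trans ?_
    rwa [LSeries_one_ofReal hz1, ofReal_re]
  rw [ofReal_re] at h1
  have h3 := norm_pos_iff.2 (h0 _ ⟨by linarith, le_rfl⟩)
  have h4 : 0 < ‖LFunction χ 1‖ := norm_pos_iff.2 (by simpa using h0 1 ⟨le_rfl, by linarith⟩)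
  constructor
  · rw [div_le_iff₀ (by positivity)]
    calc 1 ≤ _ := h1
      _ ≤ ‖LFunction χ 1‖ * Real.exp K * (108 * l) := by gcongr
      _ = _ := by ring
  · rw [norm_inv, norm_inv, inv_le_iff_one_le_mul₀ h3, mul_assoc, le_inv_mul_iff₀ h4, mul_one] at g2
    calc _ ≤ _ := g2
      _ ≤ Real.exp K * (108 * l) := by gcongr
      _ = _ := by ring

end Vale.Agent.N026
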