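import Vale.Agent.N026.Van
import Vale.Agent.N026.Pro
import Vale.Agent.P016Z.Inst.Mub

/-!
P026, the unconditional statements.
-/

namespace Vale.Agent.N026

open NumberField Vale.Agent.P016Z Vale.Agent.P016Z.EP

theorem qrh : Vale.Agent.P005Z.PT.QRH := fun _ _ χ _ hs h => dirichlet (by norm_num) mub χ hs h

theorem twist (K : Type) [Field K] [NumberField K] (q : ℕ) [NeZero q]
    (χ : DirichletCharacter ℂ q) : ∃ F : ℂ → ℂ, DifferentiableOn ℂ F {s | 0 < s.re} ∧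
      (∀ s : ℂ, 1 < s.re → F s = (s - 1) * LSeries (fun n : ℕ =>
        χ n * Nat.card {I : Ideal (𝓞 K) // Ideal.absNorm I = n}) s) ∧
      ∀ s : ℂ, 11 / 12 < s.re → s ≠ 1 → F s ≠ 0 := by
  obtain ⟨F, h1, h2⟩ := exists_cont K χ
  exact ⟨F, h1, h2, fun s hs h => nonvan (by norm_num) mub K χ
    (h1.mono fun z (hz : 11 / 12 < z.re) => show 0 < z.re by linarith) h2 hs h⟩

theorem dedekind (K : Type) [Field K] [NumberField K] :
    ∃ F : ℂ → ℂ, DifferentiableOn ℂ F {s | 0 < s.re} ∧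
      (∀ s : ℂ, 1 < s.re → F s = (s - 1) * dedekindZeta K s) ∧
      ∀ s : ℂ, 11 / 12 < s.re → F s ≠ 0 := by
  obtain ⟨F, h1, h2⟩ := exists_cont K (1 : DirichletCharacter ℂ 1)
  have e : (fun n : ℕ => (1 : DirichletCharacter ℂ 1) n) = fun _ => 1 :=
    funext fun n => MulChar.one_apply (isUnit_of_subsingleton _)
  refine ⟨F, h1, fun s hs => by rw [h2 s hs, e, LK_one], fun s hs => ?_⟩
  by_cases h : s = 1
  · rw [e] at h2
    rw [h]
    exact NV.cont_one_ne ⟨h1.mono fun z (hz : 3 / 4 < z.re) => show 0 < z.re by linarith, h2⟩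
  · exact nonvan (by norm_num) mub K 1
      (h1.mono fun z (hz : 11 / 12 < z.re) => show 0 < z.re by linarith) h2 hs h

theorem prog {θ : ℝ} (hθ : 11 / 12 < θ) : ∃ C : ℝ, ∀ q a : ℕ, 0 < q → a.Coprime q →
    ∀ x : ℝ, 1 ≤ x →
      |∑ n ∈ Finset.Icc 1 ⌊x⌋₊ with n ≡ a [MOD q], ArithmeticFunction.vonMangoldt n -
        x / q.totient| ≤ C * x ^ θ ∧
      |∑ n ∈ Finset.Icc 1 ⌊x⌋₊ with n ≡ a [MOD q], (ArithmeticFunction.moebius n : ℝ)| ≤
        C * x ^ θ := by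
  obtain ⟨C₁, h1⟩ := psi_prog qrh hθ
  obtain ⟨C₂, h2⟩ := mu_prog qrh hθ
  refine ⟨max C₁ C₂, fun q a hq ha x hx => ⟨(h1 q a hq ha x hx).trans ?_,
    (h2 q a hq ha x hx).trans ?_⟩⟩
  · exact mul_le_mul_of_nonneg_right (le_max_left _ _) (by positivity)
  · exact mul_le_mul_of_nonneg_right (le_max_right _ _) (by positivity)

end Vale.Agent.N026
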