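import Vale.Agent.N026.Unf
import Vale.Agent.P016Z.Pois.Rem

/-!
P026, extension to number fields, part 5: the theta series near the cusp `0`, and the analytic
continuation of `∑ W(N I) N(I)^{-s}` for every number field and every even or odd periodic `W`.
-/

namespace Vale.Agent.N026

open NumberField NumberField.InfinitePlace NumberField.Units Complex Finset Module MeasureTheory
open scoped Real nonZeroDivisors Classical
open Vale.Agent.P016Z.Pois (FI nrm nrm_pos Nz El dl zc tsum_El norm_congr sum_zc)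
open Vale.Agent.P016Z (LK)

variable {K : Type} [Field K] [NumberField K]

theorem Tf_zero (δ : ℕ) (y : InfinitePlace K → ℝ) : Tf δ y (0 : K) = Tf δ 0 (0 : K) := by
  simp [Tf, co]

theorem summable_Nz {δ : ℕ} (hδ : δ ≤ 1) (A : FI K) (y : InfinitePlace K → ℝ) :
    Summable fun x : Nz A => Ps δ (y + lg x.1) := by
  let i : Nz A → El A := fun x => ⟨x.1, x.2.1⟩
  have hi : Function.Injective i := fun x y h => Subtype.ext (congrArg Subtype.val h :)
  have h := (summable_Tf hδ A y 0).abs.comp_injective hi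
  refine h.congr fun x => ?_
  simp only [Function.comp_apply, zero_add, i, abs_Tf δ y x.2.2]

theorem poisson_rem {δ : ℕ} (hδ : δ ≤ 1) (A : FI K) : ∃ v : ℝ, 0 ≤ v ∧ ∃ c : ℂ,
    ∀ (y : InfinitePlace K → ℝ) (a : K),
      ‖((∑' x : El A, Tf δ y (a + x) : ℝ) : ℂ) - c * Real.exp (-∑ w, y w)‖ ≤
        v * Real.exp (-∑ w, y w) * thr δ (dl A) (-y) := by
  obtain ⟨v, hv, c, hc, h⟩ := poisson_Tf hδ A
  refine ⟨v, hv, v * c * Tf δ 0 (0 : K), fun y a => ?_⟩
  obtain ⟨e, he0, he, h⟩ := h y a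
  have h1 := tsum_El (dl A) (fun ξ => (v * Real.exp (-∑ w, y w) : ℝ) *
    (c * (Tf δ (-y) (ξ : K) : ℂ)) * e ξ) h.summable
  rw [← h.tsum_eq, h1, he0, Tf_zero]
  rw [show ∀ X : ℂ, (v * Real.exp (-∑ w, y w) : ℝ) * (c * (Tf δ 0 (0 : K) : ℂ)) * 1 + X -
    v * c * Tf δ 0 (0 : K) * Real.exp (-∑ w, y w) = X from fun X => by push_cast; ring]
  refine tsum_of_norm_bounded ((summable_Nz hδ (dl A) (-y)).hasSum.mul_left _) fun ξ => ?_
  rw [norm_mul, norm_mul, norm_mul, he, hc, norm_real, norm_real, Real.norm_eq_abs,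
    Real.norm_eq_abs, abs_Tf δ _ ξ.2.2, abs_of_nonneg (by positivity), mul_one, one_mul]

/-- the signed norm of the ideal `(x) A⁻¹` -/
noncomputable def zI (A : FI K) (x : K) : ℤ := ⌊nq x / nrm A⌋

theorem zI_cases {A : FI K} {x : K} (hx : x ∈ (A : FractionalIdeal (𝓞 K)⁰ K)) :
    (0 ≤ nq x ∧ zI A x = nI A x) ∨ (nq x < 0 ∧ zI A x = -nI A x) := by
  have h := nm_eq_nI hx
  have h0 := (nrm_pos A).ne'
  rcases le_or_gt 0 (nq x) with h1 | h1
  · refine Or.inl ⟨h1, ?_⟩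
    rw [abs_of_nonneg h1] at h
    rw [zI, h, mul_div_cancel_right₀ _ h0, Int.floor_natCast]
  · refine Or.inr ⟨h1, ?_⟩
    rw [abs_of_neg h1, neg_eq_iff_eq_neg, ← neg_mul] at h
    rw [zI, h, mul_div_cancel_right₀ _ h0, ← Int.cast_natCast, ← Int.cast_neg, Int.floor_intCast]

theorem nq_eq_zI {A : FI K} {x : K} (hx : x ∈ (A : FractionalIdeal (𝓞 K)⁰ K)) :
    nq x = zI A x * nrm A := by
  have h := nm_eq_nI hx
  rcases zI_cases hx with ⟨h1, h2⟩ | ⟨h1, h2⟩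
  · rw [h2, Int.cast_natCast, ← h, abs_of_nonneg h1]
  · rw [h2, Int.cast_neg, Int.cast_natCast, neg_mul, ← h, abs_of_neg h1, neg_neg]

theorem sign_eq {δ : ℕ} {W : ℤ → ℂ} (hW : ∀ n, W (-n) = (-1) ^ δ * W n) {A : FI K} (x : Nz A)
    (y : InfinitePlace K → ℝ) :
    W (nI A x) * (Ps δ (y + lg x.1) : ℂ) = W (zI A x) * (Tf δ y x.1 : ℂ) := by
  obtain ⟨Q, hQ, h1⟩ := nq_eq x.2.2
  obtain ⟨Q', hQ', h2⟩ := Tf_eq δ y x.1
  rw [← abs_Tf δ y x.2.2, h2, abs_mul, abs_of_pos hQ', abs_pow]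
  rcases zI_cases x.2.1 with ⟨h3, h4⟩ | ⟨h3, h4⟩
  · rw [h4, abs_of_nonneg (nonneg_of_mul_nonneg_right (h1 ▸ h3) hQ)]
  · rw [h4, hW, abs_of_neg (neg_of_mul_neg_left (mul_comm Q _ ▸ h1 ▸ h3) hQ.le), neg_pow]
    push_cast
    ring

theorem th_add {δ : ℕ} (hδ : δ ≤ 1) {W : ℤ → ℂ} (hW : ∀ n, W (-n) = (-1) ^ δ * W n) {B : ℝ}
    (hw : ∀ n, ‖W n‖ ≤ B) (A : FI K) (y : InfinitePlace K → ℝ) :
    HasSum (fun x : El A => W (zI A x) * (Tf δ y x.1 : ℂ))
      (th δ A (fun n => W n) y + W (zI A 0) * Tf δ 0 (0 : K)) := by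
  have h : Summable (fun x : El A => W (zI A x) * (Tf δ y x.1 : ℂ)) := by
    refine Summable.of_norm_bounded ((summable_Tf hδ A y 0).abs.mul_left B) fun x => ?_
    rw [norm_mul, norm_real, Real.norm_eq_abs, zero_add]
    exact mul_le_mul_of_nonneg_right (hw _) (abs_nonneg _)
  convert h.hasSum using 1
  rw [tsum_El A (fun x => W (zI A x) * (Tf δ y x : ℂ)) h, Tf_zero δ y, add_comm, th]
  simp only [sign_eq hW]

theorem Tf_scale (δ : ℕ) (y : InfinitePlace K → ℝ) {M : ℕ} (hM : M ≠ 0) (a z : K) :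
    Tf δ y (a + M * z) = Tf δ (y + fun w => mult w * Real.log M) (a / M + z) := by
  have h1 : (M : K) ≠ 0 := by exact_mod_cast hM
  have h2 : (0 : ℝ) < M := by positivity
  rw [show a + M * z = M * (a / M + z) by field_simp]
  unfold Tf
  congr 1
  ext φ
  simp only [rr, Pi.add_apply, add_div, mul_div_cancel_left₀ _ (mult_coe_ne_zero (w := mk φ)),
    Real.exp_add, Real.exp_log h2, co, map_mul, map_natCast, mul_re, mul_im, natCast_re,
    natCast_im]
  ring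

theorem exists_rem {δ : ℕ} (hδ : δ ≤ 1) (J : (Ideal (𝓞 K))⁰) {m : ℕ} (hm : m ≠ 0) {W : ℤ → ℂ}
    (hW : ∀ n, W (-n) = (-1) ^ δ * W n) {B : ℝ} (hw : ∀ n, ‖W n‖ ≤ B)
    (hp : ∀ a b : ℤ, (m : ℤ) ∣ a - b → W a = W b) :
    ∃ (c₀ c : ℂ) (B' : ℝ) (b : InfinitePlace K → ℝ), 0 ≤ B' ∧ ∀ y,
      ‖th δ (FractionalIdeal.mk0 K J) (fun n => W n) y + c₀ - c * cexp (-(∑ j, y j : ℝ))‖ ≤
        B' * Real.exp (-∑ j, y j) * thr δ (dl 1) (b - y) := by
  set A : FI K := FractionalIdeal.mk0 K J with hA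
  have hJ : Ideal.absNorm (J : Ideal (𝓞 K)) ≠ 0 := Ideal.absNorm_ne_zero_of_nonZeroDivisors J
  have hAn : nrm A = Ideal.absNorm (J : Ideal (𝓞 K)) := by
    simp [nrm, hA, FractionalIdeal.coeIdeal_absNorm]
  have hmem : ∀ x : 𝓞 K, (x : K) ∈ (A : FractionalIdeal (𝓞 K)⁰ K) ↔ x ∈ (J : Ideal (𝓞 K)) :=
    fun x => by
      rw [hA, FractionalIdeal.coe_mk0, FractionalIdeal.mem_coeIdeal]
      exact ⟨fun ⟨x', h1, h2⟩ => RingOfIntegers.ext h2 ▸ h1, fun h => ⟨x, h, rfl⟩⟩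
  set M : ℕ := m * Ideal.absNorm (J : Ideal (𝓞 K)) with hM
  have hM0 : M ≠ 0 := mul_ne_zero hm hJ
  have hMK : (M : K) ≠ 0 := by exact_mod_cast hM0
  have hMJ : (M : 𝓞 K) ∈ (J : Ideal (𝓞 K)) := by
    rw [hM, Nat.cast_mul]
    exact Ideal.mul_mem_left _ _ (Ideal.absNorm_mem _)
  let Q := 𝓞 K ⧸ Ideal.span {(M : 𝓞 K)}
  have : Finite Q := Ideal.finiteQuotientOfFreeOfNeBot _ (by simpa using hM0)
  let _ : Fintype Q := Fintype.ofFinite Q
  let f : K → ℂ := fun x => if x ∈ (A : FractionalIdeal (𝓞 K)⁰ K) then W (zI A x) else 0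
  have hO : ∀ z : El (1 : FI K), ∃ z' : 𝓞 K, (z' : K) = z := fun z =>
    (FractionalIdeal.mem_one_iff _).1 z.2
  have hint : ∀ x : 𝓞 K, x ∈ (J : Ideal (𝓞 K)) → Algebra.norm ℤ x =
      zI A x * Ideal.absNorm (J : Ideal (𝓞 K)) := by
    intro x hx
    have h := nq_eq_zI ((hmem x).2 hx)
    rw [nq, ← Algebra.coe_norm_int, hAn] at h
    exact_mod_cast h
  have hf : ∀ a z : 𝓞 K, f (a + M * z) = f a := by
    intro a z
    have h1 : (a : K) + M * z = ((a + M * z : 𝓞 K) : K) := by push_cast; rfl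
    have h2 : a + M * z ∈ (J : Ideal (𝓞 K)) ↔ a ∈ (J : Ideal (𝓞 K)) :=
      Ideal.add_mem_iff_left _ (Ideal.mul_mem_right _ _ hMJ)
    simp only [f, h1, hmem, h2]
    split_ifs with h
    · have h3 := norm_congr a z M
      rw [hint _ h, hint _ (h2.2 h), ← sub_mul, hM, Nat.cast_mul,
        mul_dvd_mul_iff_right (by exact_mod_cast hJ)] at h3
      exact hp _ _ h3
    · rfl
  let ψ : Q × El (1 : FI K) → K := fun p => ((Quotient.out p.1 : 𝓞 K) : K) + M * p.2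
  have hψ : Function.Injective ψ := by
    rintro ⟨q, z⟩ ⟨q', z'⟩ h
    obtain ⟨u, hu⟩ := hO z
    obtain ⟨u', hu'⟩ := hO z'
    simp only [ψ] at h
    have h1 : q = q' := by
      rw [← hu, ← hu'] at h
      have h2 : (Quotient.out q : 𝓞 K) + M * u = Quotient.out q' + M * u' := by
        apply RingOfIntegers.ext
        push_cast
        exact h
      rw [← Ideal.Quotient.mk_out q, ← Ideal.Quotient.mk_out q', Ideal.Quotient.eq,
        Ideal.mem_span_singleton]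
      exact ⟨u' - u, by linear_combination h2⟩
    subst h1
    rw [Subtype.ext (mul_left_cancel₀ hMK (add_left_cancel h))]
  have hr : ∀ x : K, x ∈ (A : FractionalIdeal (𝓞 K)⁰ K) → x ∈ Set.range ψ := by
    intro x hx
    rw [hA, FractionalIdeal.coe_mk0] at hx
    obtain ⟨x', -, rfl⟩ := (FractionalIdeal.mem_coeIdeal _).1 hx
    have h1 := Ideal.Quotient.mk_out (Ideal.Quotient.mk (Ideal.span {(M : 𝓞 K)}) x')
    rw [eq_comm, Ideal.Quotient.eq, Ideal.mem_span_singleton] at h1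
    obtain ⟨z, hz⟩ := h1
    refine ⟨(Ideal.Quotient.mk _ x', ⟨(z : K), (FractionalIdeal.mem_one_iff _).2 ⟨z, rfl⟩⟩), ?_⟩
    have h2 := congrArg (algebraMap (𝓞 K) K) hz
    simp only [map_sub, map_mul, map_natCast] at h2
    simp only [ψ]
    linear_combination -h2
  obtain ⟨v, hv, c, hP⟩ := poisson_rem hδ (1 : FI K)
  let b' : InfinitePlace K → ℝ := fun w => mult w * Real.log M
  refine ⟨W (zI A 0) * Tf δ 0 (0 : K),
    (∑ q : Q, f (Quotient.out q : 𝓞 K)) * (c * Real.exp (-∑ j, b' j)),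
    (∑ q : Q, ‖f (Quotient.out q : 𝓞 K)‖) * (v * Real.exp (-∑ j, b' j)),
    -b', by positivity, fun y => ?_⟩
  have h1 := th_add hδ hW hw A y
  let G : K → ℂ := fun x => f x * (Tf δ y x : ℂ)
  have hG0 : ∀ x : K, x ∉ (A : FractionalIdeal (𝓞 K)⁰ K) → G x = 0 := fun x hx => by
    simp only [G, f, if_neg hx, zero_mul]
  have h3 : HasSum G (th δ A (fun n => W n) y + W (zI A 0) * Tf δ 0 (0 : K)) := by
    rw [← (Subtype.val_injective (p := fun x : K => x ∈ (A : FractionalIdeal (𝓞 K)⁰ K))).hasSum_iff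
      fun x hx => hG0 x fun h => hx ⟨⟨x, h⟩, rfl⟩]
    refine h1.congr_fun fun x => ?_
    simp only [G, f, Function.comp_apply, if_pos x.2]
  rw [← hψ.hasSum_iff fun x hx => hG0 x fun h => hx (hr x h)] at h3
  let θ : Q → ℝ := fun q => ∑' z : El (1 : FI K),
    Tf δ (y + b') (((Quotient.out q : 𝓞 K) : K) / M + z)
  have h4 : ∀ q : Q, HasSum (fun z : El (1 : FI K) => (G ∘ ψ) (q, z))
      (f (Quotient.out q : 𝓞 K) * θ q) := by
    intro q
    have h5 := (hasSum_ofReal.2 (summable_Tf hδ (1 : FI K) (y + b')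
      (((Quotient.out q : 𝓞 K) : K) / M)).hasSum).mul_left (f (Quotient.out q : 𝓞 K))
    refine h5.congr_fun fun z => ?_
    obtain ⟨u, hu⟩ := hO z
    simp only [Function.comp_apply, G, ψ]
    rw [← hu, hf, hu, Tf_scale δ y hM0]
  have h8 := (h3.prod_fiberwise h4).unique (hasSum_fintype _)
  have h9 : Real.exp (-∑ j, (y + b') j) = Real.exp (-∑ j, b' j) * Real.exp (-∑ j, y j) := by
    simp only [Pi.add_apply, sum_add_distrib, neg_add, Real.exp_add]
    ring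
  have h10 : th δ A (fun n => W n) y + W (zI A 0) * Tf δ 0 (0 : K) -
      (∑ q : Q, f (Quotient.out q : 𝓞 K)) * (c * Real.exp (-∑ j, b' j)) *
        cexp (-(∑ j, y j : ℝ)) = ∑ q : Q, f (Quotient.out q : 𝓞 K) *
          ((θ q : ℂ) - c * Real.exp (-∑ j, (y + b') j)) := by
    simp only [h8, h9, mul_sub, sum_sub_distrib, ← sum_mul]
    push_cast
    ring
  rw [h10, sum_mul, sum_mul, sum_mul]
  refine (norm_sum_le _ _).trans (sum_le_sum fun q _ => ?_)
  have h11 := hP (y + b') (((Quotient.out q : 𝓞 K) : K) / M)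
  rw [show -(y + b') = -b' - y by abel] at h11
  rw [norm_mul]
  refine (mul_le_mul_of_nonneg_left h11 (norm_nonneg _)).trans_eq ?_
  rw [h9]
  ring

/-- **Hecke's continuation** for every number field and every even or odd periodic weight. -/
theorem hecke (K : Type) [Field K] [NumberField K] {δ : ℕ} (hδ : δ ≤ 1) {m : ℕ} (hm : m ≠ 0)
    {W : ℤ → ℂ} (hW : ∀ n, W (-n) = (-1) ^ δ * W n) {B : ℝ} (hw : ∀ n, ‖W n‖ ≤ B)
    (hp : ∀ a b : ℤ, (m : ℤ) ∣ a - b → W a = W b) :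
    ∃ F : ℂ → ℂ, DifferentiableOn ℂ F {s | 0 < s.re} ∧
      ∀ s : ℂ, 1 < s.re → F s = (s - 1) * LK K (fun n => W n) s := by
  choose J hJ using ClassGroup.mk0_surjective (R := 𝓞 K)
  choose c₀ c B' b hB hP using fun k => exists_rem hδ (J k) hm hW hw hp
  choose F hF1 hF2 using fun k => cont_class δ _ _ (w := fun n => W n) (fun n => hw n) (hB k) (hP k)
  refine ⟨fun s => ∑ k, F k s, DifferentiableOn.fun_sum fun k _ => hF1 k, fun s hs => ?_⟩
  rw [← sum_zc (fun k => FractionalIdeal.mk0 K (J k)) (by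
    simp only [ClassGroup.mk_mk0, hJ]
    exact Function.bijective_id) (fun n => hw n) hs, mul_sum]
  exact sum_congr rfl fun k _ => hF2 k s hs

end Vale.Agent.N026
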