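import Vale.Agent.P016Z.Pois.Ideal
import Mathlib.MeasureTheory.Integral.IntegralEqImproper
import Mathlib.MeasureTheory.Integral.Pi

/-!
P026, extension to number fields, part 1: Poisson summation for products of the functions
`exp(-π u²)` and `u exp(-π u²)` over a lattice.
-/

namespace Vale.Agent.N026

open Complex MeasureTheory Matrix Finset
open scoped Real
open Vale.Agent.P267.H775

/-- `u ^ d exp(-π u²)` -/
noncomputable def hg (d : ℕ) (u : ℝ) : ℝ := u ^ d * Real.exp (-π * u ^ 2)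

theorem abs_hg_le {d : ℕ} (hd : d ≤ 1) (u : ℝ) : |hg d u| ≤ Real.exp (-π * (1 / 2) * u ^ 2) := by
  have hpi := Real.pi_gt_three
  have h1 : |u| ^ d ≤ Real.exp (π * (1 / 2) * u ^ 2) := by
    have h2 := Real.add_one_le_exp (π * (1 / 2) * u ^ 2)
    have h3 := sq_abs u
    interval_cases d
    · simp only [pow_zero]; nlinarith [sq_nonneg u]
    · simp only [pow_one]; nlinarith [sq_nonneg (|u| - 1), sq_nonneg u]
  rw [hg, abs_mul, abs_pow, abs_of_pos (Real.exp_pos _)]
  calc _ ≤ Real.exp (π * (1 / 2) * u ^ 2) * Real.exp (-π * u ^ 2) := by gcongr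
    _ = _ := by rw [← Real.exp_add]; congr 1; ring

theorem fourier_hg {d : ℕ} (hd : d ≤ 1) (k : ℝ) :
    ∫ u : ℝ, cexp (-(2 * π * I) * k * u) * (hg d u : ℂ) = (-I) ^ d * (hg d k : ℂ) := by
  set c : ℂ := -(2 * π * I) * k with hc
  have hb : (-(π : ℂ)).re < 0 := by simpa using Real.pi_pos
  have hπ : (π : ℂ) ≠ 0 := by exact_mod_cast Real.pi_pos.ne'
  have h0 : ∫ u : ℝ, cexp (-(π : ℂ) * u ^ 2 + c * u + 0) = cexp (-π * k ^ 2) := by
    rw [integral_cexp_quadratic hb, neg_neg, div_self hπ, one_cpow, one_mul]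
    congr 1
    rw [hc]
    field_simp
    rw [I_sq]; ring
  have hi := integrable_cexp_quadratic' hb c 0
  have e : ∀ u : ℝ, cexp (c * u) * (hg d u : ℂ) = u ^ d * cexp (-(π : ℂ) * u ^ 2 + c * u + 0) := by
    intro u
    rw [hg, add_zero, Complex.exp_add]
    push_cast
    ring
  simp only [e]
  interval_cases d
  · simp only [pow_zero, one_mul, h0, hg]
    push_cast
    rfl
  · have hi1 : Integrable fun u : ℝ => (u : ℂ) * cexp (-(π : ℂ) * u ^ 2 + c * u + 0) := by
      refine (integrable_mul_exp_neg_mul_sq Real.pi_pos).norm.mono'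
        (Continuous.aestronglyMeasurable (by fun_prop)) (ae_of_all _ fun u => le_of_eq ?_)
      rw [norm_mul, norm_mul, norm_real, norm_exp, Real.norm_of_nonneg (Real.exp_pos _).le]
      congr 2
      have : (-(π : ℂ) * u ^ 2 + c * u + 0) = ((-π * u ^ 2 : ℝ) : ℂ) + ((-(2 * π * k * u) : ℝ) : ℂ) * I := by
        rw [hc]; push_cast; ring
      rw [this]
      simp only [add_re, ofReal_re, mul_re, I_re, mul_zero, ofReal_im, I_im, mul_one, sub_self,
        add_zero]
    have hd : ∀ u : ℝ, HasDerivAt (fun u : ℝ => cexp (-(π : ℂ) * u ^ 2 + c * u + 0))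
        (-(2 * π) * ((u : ℂ) * cexp (-(π : ℂ) * u ^ 2 + c * u + 0)) +
          c * cexp (-(π : ℂ) * u ^ 2 + c * u + 0)) u := by
      intro u
      have h1 : HasDerivAt (fun z : ℂ => cexp (-(π : ℂ) * z ^ 2 + c * z + 0))
          (cexp (-(π : ℂ) * u ^ 2 + c * u + 0) * (-(π : ℂ) * (2 * u) + c)) u := by
        have h2 := ((((hasDerivAt_pow 2 (u : ℂ)).const_mul (-(π : ℂ))).add
          ((hasDerivAt_id (u : ℂ)).const_mul c)).add_const 0).cexp
        simpa using h2
      refine h1.comp_ofReal.congr_deriv ?_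
      ring
    have h2 := integral_eq_zero_of_hasDerivAt_of_integrable hd
      ((hi1.const_mul _).add (hi.const_mul _)) hi
    rw [integral_add (hi1.const_mul _) (hi.const_mul _), integral_const_mul, integral_const_mul,
      h0] at h2
    simp only [pow_one, hg]
    push_cast
    have h3 : (2 * π : ℂ) ≠ 0 := mul_ne_zero two_ne_zero hπ
    apply mul_left_cancel₀ h3
    rw [hc] at h2 ⊢
    linear_combination -h2

variable {κ : Type} [Fintype κ] [DecidableEq κ]

/-- the product of the one-dimensional functions -/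
noncomputable def Ph (d : κ → ℕ) (u : κ → ℝ) : ℝ := ∏ j, hg (d j) (u j)

/-- the test function on the lattice -/
noncomputable def tf (d : κ → ℕ) (M : Matrix κ κ ℝ) : C(κ → ℝ, ℂ) where
  toFun x := (Ph d (M *ᵥ x) : ℂ)
  continuous_toFun := by
    unfold Ph hg
    fun_prop

omit [DecidableEq κ] in
theorem tf_apply (d : κ → ℕ) (M : Matrix κ κ ℝ) (x : κ → ℝ) : tf d M x = (Ph d (M *ᵥ x) : ℂ) :=
  rfl

theorem norm_tf_le {d : κ → ℕ} (hd : ∀ j, d j ≤ 1) (M : Matrix κ κ ℝ) (x : κ → ℝ) :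
    ‖tf d M x‖ ≤ ‖gau M (I / 2) x‖ := by
  rw [tf_apply, norm_real, Real.norm_eq_abs, Ph, abs_prod, norm_gau, qf, mul_sum, Real.exp_sum]
  refine prod_le_prod (fun _ _ => abs_nonneg _) fun j _ => (abs_hg_le (hd j) _).trans_eq ?_
  simp

theorem locSum_tf {d : κ → ℕ} (hd : ∀ j, d j ≤ 1) {M : Matrix κ κ ℝ} (hM : M.det ≠ 0) :
    LocSum (tf d M) := by
  intro C
  refine Summable.of_nonneg_of_le (fun _ => norm_nonneg _) (fun n => ?_)
    (locSum_gau M hM (τ := I / 2) (by simp) C)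
  rw [ContinuousMap.norm_le _ (norm_nonneg _)]
  rintro ⟨x, hx⟩
  exact (norm_tf_le hd M (x + toR n)).trans (norm_le_restrict (trans (gau M (I / 2)) n) C hx)

theorem summable_Ph {d : κ → ℕ} (hd : ∀ j, d j ≤ 1) {M : Matrix κ κ ℝ} (hM : M.det ≠ 0)
    (x : κ → ℝ) : Summable fun n : κ → ℤ => Ph d (M *ᵥ (x + toR n)) :=
  summable_ofReal.1 ((locSum_tf hd hM).summable x)

theorem fc_tf {d : κ → ℕ} (hd : ∀ j, d j ≤ 1) {M : Matrix κ κ ℝ} (hM : M.det ≠ 0) (k : κ → ℤ) :
    fc (tf d M) k = (|M.det|⁻¹ : ℝ) * ((∏ j, (-I) ^ d j) * (Ph d ((M⁻¹)ᵀ *ᵥ toR k) : ℂ)) := by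
  set η : κ → ℝ := (M⁻¹)ᵀ *ᵥ toR k with hη
  set F : (κ → ℝ) → ℂ := fun y => ∏ j, cexp (-(2 * π * I) * η j * y j) * (hg (d j) (y j) : ℂ)
    with hF
  have hmap := Real.map_matrix_volume_pi_eq_smul_volume_pi hM
  have hme : Measurable (toLin' M : (κ → ℝ) → (κ → ℝ)) :=
    (LinearMap.continuous_on_pi (toLin' M)).measurable
  have h1 : ∀ x : κ → ℝ, chr (-k) x * tf d M x = F (toLin' M x) := by
    intro x
    rw [tf_apply, chr, hF, Ph, ofReal_prod]
    simp only [toLin'_apply]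
    rw [prod_mul_distrib, ← Complex.exp_sum]
    congr 2
    have e3 : η ⬝ᵥ (M *ᵥ x) = toR k ⬝ᵥ x := by
      rw [hη, mulVec_transpose, ← dotProduct_mulVec, mulVec_mulVec,
        nonsing_inv_mul _ (isUnit_iff_ne_zero.2 hM), one_mulVec]
    have e4 := congrArg (fun r : ℝ => (r : ℂ)) e3
    simp only [dotProduct, toR_apply] at e4
    push_cast at e4
    simp only [Pi.neg_apply, Int.cast_neg, neg_mul, sum_neg_distrib, mul_assoc, ← mul_sum, e4,
      mul_neg]
  unfold fc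
  simp_rw [h1]
  rw [← integral_map (φ := (toLin' M : (κ → ℝ) → (κ → ℝ))) (f := F) hme.aemeasurable
    (Continuous.aestronglyMeasurable (by unfold hg at hF; rw [hF]; fun_prop)), hmap,
    integral_smul_measure, ENNReal.toReal_ofReal (abs_nonneg _), abs_inv, Complex.real_smul, hF,
    integral_fintype_prod_volume_eq_prod
      (fun j (y : ℝ) => cexp (-(2 * π * I) * η j * y) * (hg (d j) y : ℂ))]
  simp only [fourier_hg (hd _), prod_mul_distrib, Ph, ofReal_prod]

/-- **Poisson summation.** -/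
theorem poisson_Ph {d : κ → ℕ} (hd : ∀ j, d j ≤ 1) {M : Matrix κ κ ℝ} (hM : M.det ≠ 0)
    (x : κ → ℝ) :
    HasSum (fun k : κ → ℤ => (|M.det|⁻¹ : ℝ) * ((∏ j, (-I) ^ d j) *
        (Ph d ((M⁻¹)ᵀ *ᵥ toR k) : ℂ)) * chr k x)
      ((∑' n : κ → ℤ, Ph d (M *ᵥ (x + toR n)) : ℝ) : ℂ) := by
  have hM' : ((M⁻¹)ᵀ).det ≠ 0 := by
    rw [det_transpose, det_nonsing_inv, Ring.inverse_eq_inv]
    exact inv_ne_zero hM
  have hs : Summable (fc (tf d M : (κ → ℝ) → ℂ)) := by
    have h1 := summable_ofReal.2 (summable_Ph hd hM' 0)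
    simp only [zero_add] at h1
    exact ((h1.mul_left _).mul_left _).congr fun k => (fc_tf hd hM k).symm
  have hi : Integrable (tf d M : (κ → ℝ) → ℂ) :=
    (integrable_gau M hM (τ := I / 2) (by simp)).norm.mono'
      (tf d M).continuous.aestronglyMeasurable (ae_of_all _ (norm_tf_le hd M))
  have hp := poisson (tf d M) (locSum_tf hd hM) hi hs x
  simp only [fc_tf hd hM, tf_apply] at hp
  rwa [ofReal_tsum]

end Vale.Agent.N026
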