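import Vale.Agent.N026.Uni
import Vale.Agent.P016Z.Pois.Cont
import Mathlib.Analysis.SpecialFunctions.Gamma.Beta

/-!
P026, extension to number fields, part 4: unfolding of the theta integral over a fundamental
domain of the units, and continuation of the theta integral of one class.
-/

namespace Vale.Agent.N026

open NumberField NumberField.InfinitePlace NumberField.Units Complex Finset Module MeasureTheory
open scoped Real nonZeroDivisors Classical
open Vale.Agent.P016Z.Pois (un uK uK_ne uK_mul FI nrm nrm_pos Nz Cl exists_span mem_of_span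
  span_unit gamma_one zc summable_Cl diff_param)

variable {K : Type} [Field K] [NumberField K]

/-- the norm of the ideal `(x) A⁻¹` -/
noncomputable def nI (A : FI K) (x : K) : ℕ := ⌊|nq x| / nrm A⌋₊

theorem nm_of_span {A : FI K} {I : Ideal (𝓞 K)} {x : K}
    (h : FractionalIdeal.spanSingleton (𝓞 K)⁰ x = (I : FractionalIdeal (𝓞 K)⁰ K) * A) :
    |nq x| = Ideal.absNorm I * nrm A := by
  have h1 := congrArg FractionalIdeal.absNorm h
  rw [FractionalIdeal.absNorm_span_singleton, map_mul, FractionalIdeal.coeIdeal_absNorm] at h1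
  rw [nq, nrm]
  exact_mod_cast h1

theorem nI_of_span {A : FI K} {I : Ideal (𝓞 K)} {x : K}
    (h : FractionalIdeal.spanSingleton (𝓞 K)⁰ x = (I : FractionalIdeal (𝓞 K)⁰ K) * A) :
    nI A x = Ideal.absNorm I := by
  rw [nI, nm_of_span h, mul_div_cancel_right₀ _ (nrm_pos A).ne', Nat.floor_natCast]

theorem nm_eq_nI {A : FI K} {x : K} (hx : x ∈ (A : FractionalIdeal (𝓞 K)⁰ K)) :
    |nq x| = nI A x * nrm A := by
  obtain ⟨I, hI⟩ := exists_span hx
  rw [nI_of_span hI, nm_of_span hI]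

theorem nq_ne {x : K} (hx : x ≠ 0) : nq x ≠ 0 := by
  unfold nq
  exact_mod_cast Algebra.norm_ne_zero_iff.2 hx

theorem exists_gen {F : Set (InfinitePlace K → ℝ)} (hF : FD F) (y : InfinitePlace K → ℝ)
    {A : FI K} (I : Cl A) : ∃ x : K, x ≠ 0 ∧ FractionalIdeal.spanSingleton (𝓞 K)⁰ x =
      (I.1 : FractionalIdeal (𝓞 K)⁰ K) * A ∧ y - lg x ∈ F := by
  obtain ⟨x, hx, h⟩ := I.2
  obtain ⟨n, hn, -⟩ := hF.2 (y - lg x)
  refine ⟨uK (un K n) * x, mul_ne_zero (uK_ne _) hx, by rw [span_unit, h], ?_⟩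
  rw [lg_mul (uK_ne _) hx]
  rwa [show y - (lg (uK (un K n)) + lg x) = y - lg x - lam n by unfold lam; abel]

/-- the generators in a fundamental domain: each ideal is counted `w` times -/
theorem comb {F : Set (InfinitePlace K → ℝ)} (hF : FD F) (y : InfinitePlace K → ℝ) (A : FI K)
    (H : ℕ → ℂ) (hH : Summable fun I : Cl A => ‖H (Ideal.absNorm I.1)‖) :
    HasSum (fun x : Nz A => if y - lg x.1 ∈ F then H (nI A x) else 0)
      (torsionOrder K * ∑' I : Cl A, H (Ideal.absNorm I.1)) := by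
  choose g hg0 hg1 hg2 using fun I : Cl A => exists_gen hF y I
  let φ : torsion K × Cl A → Nz A := fun p => ⟨uK p.1 * g p.2,
    mem_of_span ((span_unit _ _).trans (hg1 p.2)), mul_ne_zero (uK_ne _) (hg0 _)⟩
  have hφ : Function.Injective φ := by
    rintro ⟨ζ, I⟩ ⟨ζ', I'⟩ h
    have h1 : uK ζ * g I = uK ζ' * g I' := congrArg Subtype.val h
    have h2 : I = I' := by
      have h3 := (span_unit ζ (g I)).trans (hg1 I)
      rw [h1, span_unit, hg1] at h3
      exact Subtype.ext (FractionalIdeal.coeIdeal_inj.1 ((Units.mul_left_inj A).1 h3)).symm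
    subst h2
    have h4 := mul_right_cancel₀ (hg0 I) h1
    have h5 : ζ = ζ' := Subtype.ext (Units.ext (RingOfIntegers.ext h4))
    rw [h5]
  have hlg : ∀ p, lg (φ p : K) = lg (g p.2) := fun p => by
    change lg (uK p.1 * g p.2) = _
    rw [lg_mul (uK_ne _) (hg0 _), lg_torsion p.1.2, zero_add]
  have hr : ∀ x : Nz A, x ∉ Set.range φ →
      (if y - lg x.1 ∈ F then H (nI A x) else 0) = 0 := by
    intro x hx
    refine if_neg fun hy => hx ?_
    obtain ⟨I, hI⟩ := exists_span x.2.1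
    let I' : Cl A := ⟨I, x.1, x.2.2, hI⟩
    obtain ⟨u, hu⟩ := FractionalIdeal.spanSingleton_eq_spanSingleton.1 ((hg1 I').trans hI.symm)
    obtain ⟨⟨ζ, n⟩, hn, -⟩ := exist_unique_eq_mul_prod K u
    have hx1 : x.1 = uK ζ * (uK (un K n) * g I') := by
      rw [← hu, hn, ← mul_assoc, ← uK_mul]; rfl
    obtain ⟨m, -, hm⟩ := hF.2 (y - lg (g I'))
    have h0 : n = 0 := by
      rw [hm 0 (by simpa [lam_eq] using hg2 I')]
      refine hm n ?_
      rw [hx1, lg_mul (uK_ne _) (mul_ne_zero (uK_ne _) (hg0 _)), lg_torsion ζ.2, zero_add,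
        lg_mul (uK_ne _) (hg0 _)] at hy
      rwa [show y - lg (g I') - lam n = y - (lg (uK (un K n)) + lg (g I')) by
        unfold lam; abel]
    refine ⟨(ζ, I'), Subtype.ext ?_⟩
    rw [hx1, h0]
    simp [φ, un, uK]
  rw [← hφ.hasSum_iff hr]
  have h1 : (fun x : Nz A => if y - lg x.1 ∈ F then H (nI A x) else 0) ∘ φ =
      fun p : torsion K × Cl A => (1 : ℂ) * H (Ideal.absNorm p.2.1) := by
    ext p
    simp only [Function.comp_apply, hlg, hg2, if_true, one_mul]
    rw [nI_of_span ((span_unit _ _).trans (hg1 p.2))]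
  have h2 : Summable fun _ : torsion K => ‖(1 : ℂ)‖ := .of_finite
  have h3 := tsum_mul_tsum_of_summable_norm h2 hH
  rw [tsum_const, nsmul_one] at h3
  rw [h1, torsionOrder, h3]
  exact (summable_mul_of_summable_norm h2 hH).hasSum

theorem gamma_gen {c k : ℝ} (hc : 0 < c) (hk : 0 < k) {z : ℂ} (hz : 0 < z.re) :
    Integrable (fun y : ℝ => cexp (z * y - c * Real.exp (k * y))) ∧
      ∫ y : ℝ, cexp (z * y - c * Real.exp (k * y)) ≠ 0 := by
  have hz' : 0 < (z / k).re := by rw [div_ofReal_re]; positivity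
  obtain ⟨h1, h2⟩ := gamma_one hz'
  set l : ℝ := Real.log (c / (2 * π)) with hl
  set H : ℝ → ℂ := fun v => cexp (z / k * v - 2 * π * Real.exp v) with hH
  have hk' : (k : ℂ) ≠ 0 := by exact_mod_cast hk.ne'
  have hπ : (π : ℂ) ≠ 0 := by exact_mod_cast Real.pi_pos.ne'
  have e : (fun y : ℝ => cexp (z * y - c * Real.exp (k * y))) =
      fun y : ℝ => cexp (-(z / k * l)) * (fun v => H (v + l)) (k * y) := by
    ext y
    simp only [hH, ← Complex.exp_add]
    congr 1
    rw [Real.exp_add, hl, Real.exp_log (by positivity)]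
    push_cast
    field_simp
    ring
  rw [e]
  refine ⟨((h1.comp_add_right l).comp_mul_left' hk.ne').const_mul _, ?_⟩
  rw [integral_const_mul, Measure.integral_comp_mul_left (fun v => H (v + l)),
    integral_add_right_eq_self H, h2]
  refine mul_ne_zero (exp_ne_zero _) (smul_ne_zero (by positivity) (mul_ne_zero ?_
    (Gamma_ne_zero_of_re_pos hz')))
  simp [hπ]

/-- the archimedean integrand -/
noncomputable def GG (δ : ℕ) (s : ℂ) (z : InfinitePlace K → ℝ) : ℂ :=
  cexp (s * (∑ w, z w : ℝ)) * Ps δ z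

theorem GG_eq (δ : ℕ) (s : ℂ) : GG (K := K) δ s = fun z => ∏ w, cexp ((s + dw δ w) * z w -
    (mult w * π : ℝ) * Real.exp (2 / mult w * z w)) := by
  ext z
  rw [GG, Ps, ofReal_exp, ← Complex.exp_add, ← Complex.exp_sum]
  congr 1
  push_cast
  rw [mul_sum, ← sum_add_distrib]
  exact sum_congr rfl fun w _ => by ring

omit [NumberField K] in
theorem gamma_w (δ : ℕ) {s : ℂ} (hs : 0 < s.re) (w : InfinitePlace K) :
    Integrable (fun y : ℝ => cexp ((s + dw δ w) * y -
      (mult w * π : ℝ) * Real.exp (2 / mult w * y))) ∧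
    ∫ y : ℝ, cexp ((s + dw δ w) * y - (mult w * π : ℝ) * Real.exp (2 / mult w * y)) ≠ 0 := by
  have h1 : (0 : ℝ) < mult w := by exact_mod_cast mult_pos
  have h2 : 0 ≤ dw δ w := by unfold dw; split_ifs <;> positivity
  exact gamma_gen (by positivity) (by positivity) (by simp only [add_re, ofReal_re]; linarith)

theorem integrable_GG (δ : ℕ) {s : ℂ} (hs : 0 < s.re) : Integrable (GG (K := K) δ s) := by
  rw [GG_eq]
  exact Integrable.fintype_prod (f := fun w (y : ℝ) => cexp ((s + dw δ w) * y -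
    (mult w * π : ℝ) * Real.exp (2 / mult w * y))) fun w => (gamma_w δ hs w).1

/-- the archimedean factor -/
noncomputable def gam (K : Type) [Field K] [NumberField K] (δ : ℕ) (s : ℂ) : ℂ :=
  ∫ z : InfinitePlace K → ℝ, GG δ s z

theorem gam_ne (δ : ℕ) {s : ℂ} (hs : 0 < s.re) : gam K δ s ≠ 0 := by
  rw [gam, GG_eq, integral_fintype_prod_volume_eq_prod (fun w (y : ℝ) => cexp ((s + dw δ w) * y -
    (mult w * π : ℝ) * Real.exp (2 / mult w * y)))]
  exact prod_ne_zero_iff.2 fun w _ => (gamma_w δ hs w).2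

@[fun_prop] theorem measurable_Ps (δ : ℕ) : Measurable (Ps (K := K) δ) := by
  unfold Ps
  fun_prop

theorem diff_gam (δ : ℕ) : DifferentiableOn ℂ (gam K δ) {s | 0 < s.re} := by
  refine diff_param (u := fun z : InfinitePlace K → ℝ => ∑ w, z w) (φ := fun z => (Ps δ z : ℂ))
    (by fun_prop) (by fun_prop) fun σ hσ => ?_
  refine (integrable_GG (K := K) δ (s := σ) (by simpa using hσ)).norm.congr
    (ae_of_all _ fun z => ?_)
  simp only [GG, norm_mul, norm_exp, re_mul_ofReal, ofReal_re]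

theorem GG_shift (δ : ℕ) (s : ℂ) (y : InfinitePlace K → ℝ) {x : K} (hx : x ≠ 0) :
    cexp (s * (∑ j, y j : ℝ)) * (Ps δ (y + lg x) : ℂ) =
      cexp (-s * Real.log |nq x|) * GG δ s (y + lg x) := by
  rw [GG, ← mul_assoc, ← Complex.exp_add, ← sum_lg hx]
  simp only [Pi.add_apply, sum_add_distrib]
  congr 2
  push_cast
  ring

/-- the theta series without the zero term -/
noncomputable def th (δ : ℕ) (A : FI K) (w : ℕ → ℂ) (y : InfinitePlace K → ℝ) : ℂ :=
  ∑' x : Nz A, w (nI A x) * (Ps δ (y + lg x.1) : ℂ)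

theorem measurable_th (δ : ℕ) (A : FI K) (w : ℕ → ℂ) : Measurable (th δ A w) := by
  refine Measurable.tsum fun x => ?_
  fun_prop

/-- **Unfolding.** -/
theorem unfold_th (δ : ℕ) {F : Set (InfinitePlace K → ℝ)} (hF : FD F) (A : FI K) {w : ℕ → ℂ}
    {B : ℝ} (hw : ∀ n, ‖w n‖ ≤ B) {s : ℂ} (hs : 1 < s.re) :
    IntegrableOn (fun y => cexp (s * (∑ j, y j : ℝ)) * th δ A w y) F ∧
    ∫ y in F, cexp (s * (∑ j, y j : ℝ)) * th δ A w y =
      torsionOrder K * gam K δ s * cexp (-s * Real.log (nrm A)) * zc A w s := by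
  have hs0 : 0 < s.re := by linarith
  let H : ℕ → ℂ := fun n => w n * (n : ℂ) ^ (-s)
  let c : ℂ := cexp (-s * Real.log (nrm A))
  let b : Nz A → (InfinitePlace K → ℝ) → ℂ := fun x y =>
    (if y - lg x.1 ∈ F then H (nI A x) else 0) * (c * GG δ s y)
  let a : Nz A → (InfinitePlace K → ℝ) → ℂ := fun x y => b x (y + lg x.1)
  have hH : Summable fun I : Cl A => ‖H (Ideal.absNorm I.1)‖ := summable_Cl A hw hs
  have ha : ∀ y, ∑' x, a x y =
      F.indicator (fun y => cexp (s * (∑ j, y j : ℝ)) * th δ A w y) y := by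
    intro y
    simp only [a, b, add_sub_cancel_right]
    by_cases hy : y ∈ F
    · rw [Set.indicator_of_mem hy, th, ← tsum_mul_left]
      refine tsum_congr fun x => ?_
      have h1 := abs_pos.2 (nq_ne x.2.2)
      have h2 := nm_eq_nI x.2.1
      have h3 : (nI A x : ℝ) ≠ 0 := fun h => by rw [h2, h, zero_mul] at h1; exact h1.false
      rw [if_pos hy, mul_left_comm (cexp _), GG_shift δ s y x.2.2, h2,
        Real.log_mul h3 (nrm_pos A).ne']
      simp only [H, c]
      rw [cpow_def_of_ne_zero (by exact_mod_cast h3), ← natCast_log, ofReal_add, mul_add,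
        Complex.exp_add, mul_comm (Real.log _ : ℂ)]
      ring
    · simp [hy]
  have hG : Measurable (GG (K := K) δ s) := by unfold GG; fun_prop
  have hbm : ∀ x, Measurable (b x) := fun x =>
    (Measurable.ite ((measurable_id.sub measurable_const) hF.1) measurable_const
      measurable_const).mul (hG.const_mul c)
  have ham : ∀ x, Measurable (a x) := fun x => (hbm x).comp (measurable_id.add measurable_const)
  have hb1 : ∀ y, HasSum (fun x => b x y) (torsionOrder K * zc A w s * (c * GG δ s y)) :=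
    fun y => (comb hF y A H hH).mul_right _
  have hb2 : ∑' x, ∫⁻ y, ‖b x y‖ₑ ≠ ⊤ := by
    rw [← lintegral_tsum fun x => (hbm x).enorm.aemeasurable]
    set Z : ℝ := ((torsionOrder K : ℂ) * ∑' I : Cl A, ((‖H (Ideal.absNorm I.1)‖ : ℝ) : ℂ)).re
    have h1 : ∀ y, ∑' x, ‖b x y‖ₑ = ENNReal.ofReal Z * ‖c * GG δ s y‖ₑ := by
      intro y
      have h2 := hasSum_re (comb hF y A (fun n => ((‖H n‖ : ℝ) : ℂ)) (by simpa using hH))
      have h3 : (fun x : Nz A => (if y - lg x.1 ∈ F then ((‖H (nI A x)‖ : ℝ) : ℂ) else 0).re) =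
          fun x : Nz A => ‖if y - lg x.1 ∈ F then H (nI A x) else 0‖ := by
        ext x
        split_ifs <;> simp
      rw [h3] at h2
      simp only [b, enorm_mul]
      rw [ENNReal.tsum_mul_right, ← enorm_mul]
      congr 1
      simp_rw [← ofReal_norm]
      rw [← ENNReal.ofReal_tsum_of_nonneg (fun _ => norm_nonneg _) h2.summable, h2.tsum_eq]
    simp_rw [h1]
    rw [lintegral_const_mul' _ _ ENNReal.ofReal_ne_top]
    exact ENNReal.mul_ne_top ENNReal.ofReal_ne_top ((integrable_GG δ hs0).const_mul c).2.ne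
  have ha2 : ∑' x, ∫⁻ y, ‖a x y‖ₑ ≠ ⊤ := by
    have : ∀ x, ∫⁻ y, ‖a x y‖ₑ = ∫⁻ y, ‖b x y‖ₑ := fun x =>
      lintegral_add_right_eq_self (fun y => ‖b x y‖ₑ) _
    simpa only [this] using hb2
  constructor
  · rw [← integrable_indicator_iff hF.1, ← funext ha]
    refine ⟨(Measurable.tsum ham).aestronglyMeasurable, ?_⟩
    refine lt_of_le_of_lt (lintegral_mono fun y => enorm_tsum_le_tsum_enorm) ?_
    rw [lintegral_tsum fun x => (ham x).enorm.aemeasurable]
    exact ha2.lt_top
  · rw [← integral_indicator hF.1, ← funext ha,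
      integral_tsum (fun x => (ham x).aestronglyMeasurable) ha2]
    have : ∀ x, ∫ y, a x y = ∫ y, b x y := fun x => integral_add_right_eq_self (b x) _
    simp_rw [this]
    rw [← integral_tsum (fun x => (hbm x).aestronglyMeasurable) hb2]
    simp_rw [fun y => (hb1 y).tsum_eq]
    rw [integral_const_mul, integral_const_mul, gam]
    ring

/-- the real theta series without the zero term -/
noncomputable def thr (δ : ℕ) (A : FI K) (y : InfinitePlace K → ℝ) : ℝ :=
  ∑' x : Nz A, Ps δ (y + lg x.1)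

theorem thr_nonneg (δ : ℕ) (A : FI K) (y : InfinitePlace K → ℝ) : 0 ≤ thr δ A y :=
  tsum_nonneg fun _ => (Ps_pos _ _).le

theorem unfold_neg (δ : ℕ) (A : FI K) (b : InfinitePlace K → ℝ) :
    IntegrableOn (fun y => Real.exp (2 * ∑ j, (b - y) j) * thr δ A (b - y)) (F0 K) := by
  have hF := fd_F0.neg b
  have h1 := (unfold_th δ hF A (w := fun _ => 1) (B := 1) (by simp) (s := 2) (by simp)).1
  have h3 : (fun y : InfinitePlace K → ℝ => cexp (2 * (∑ j, y j : ℝ)) * th δ A (fun _ => 1) y) =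
      fun y => ((Real.exp (2 * ∑ j, y j) * thr δ A y : ℝ) : ℂ) := by
    ext y
    simp only [th, thr, one_mul, ofReal_mul, ofReal_tsum, ofReal_exp, ofReal_ofNat]
  rw [h3] at h1
  have h2 : IntegrableOn (fun y => Real.exp (2 * ∑ j, y j) * thr δ A y) {y | b - y ∈ F0 K} := h1.re
  rw [← integrable_indicator_iff hF.1] at h2
  have h4 : (F0 K).indicator (fun y => Real.exp (2 * ∑ j, (b - y) j) * thr δ A (b - y)) =
      fun y => {y | b - y ∈ F0 K}.indicator
        (fun y => Real.exp (2 * ∑ j, y j) * thr δ A y) (b - y) := by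
    ext y
    by_cases hy : y ∈ F0 K
    · rw [Set.indicator_of_mem hy, Set.indicator_of_mem (by simpa using hy)]
    · rw [Set.indicator_of_notMem hy, Set.indicator_of_notMem (by simpa using hy)]
  rw [← integrable_indicator_iff fd_F0.1, h4]
  exact h2.comp_sub_left b

theorem measurableSet_half : MeasurableSet {y : InfinitePlace K → ℝ | ∑ j, y j ≤ 0} :=
  measurableSet_le (by fun_prop) measurable_const

/-- **Continuation of the zeta function of one class.** -/
theorem cont_class (δ : ℕ) (A A' : FI K) {w : ℕ → ℂ} {B : ℝ} (hw : ∀ n, ‖w n‖ ≤ B) {c₀ c : ℂ}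
    {B' : ℝ} {b : InfinitePlace K → ℝ} (hB : 0 ≤ B')
    (hP : ∀ y, ‖th δ A w y + c₀ - c * cexp (-(∑ j, y j : ℝ))‖ ≤
      B' * Real.exp (-∑ j, y j) * thr δ A' (b - y)) :
    ∃ F : ℂ → ℂ, DifferentiableOn ℂ F {s | 0 < s.re} ∧
      ∀ s : ℂ, 1 < s.re → F s = (s - 1) * zc A w s := by
  set rem : (InfinitePlace K → ℝ) → ℂ := fun y => th δ A w y + c₀ - c * cexp (-(∑ j, y j : ℝ))
    with hrem
  have hth := measurable_th δ A w
  have hrm : Measurable rem := by rw [hrem]; fun_prop
  have hPp : DifferentiableOn ℂ (fun s : ℂ => ∫ y in F0 K \ {y | ∑ j, y j ≤ 0},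
      cexp (s * (∑ j, y j : ℝ)) * th δ A w y) {s | 0 < s.re} := by
    refine diff_param (by fun_prop) hth fun σ _ => ?_
    have h1 := (unfold_th δ fd_F0 A hw (s := (max σ 2 : ℝ))
      (by simp only [ofReal_re]; linarith [le_max_right σ 2])).1.mono_set
        (Set.sdiff_subset (t := {y | ∑ j, y j ≤ 0}))
    refine h1.norm.mono' (Measurable.aestronglyMeasurable (by fun_prop)) ?_
    filter_upwards [ae_restrict_mem (fd_F0.1.diff measurableSet_half)] with y hy
    have h3 : 0 ≤ ∑ j, y j := (not_le.1 hy.2).le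
    rw [Real.norm_of_nonneg (by positivity), norm_mul, norm_exp, re_mul_ofReal, ofReal_re]
    gcongr
    exact le_max_left σ 2
  have hir : ∀ σ : ℝ, 0 < σ → Integrable (fun y => Real.exp (σ * ∑ j, y j) * ‖rem y‖)
      (volume.restrict (F0 K ∩ {y | ∑ j, y j ≤ 0})) := by
    intro σ hσ
    have h1 := (unfold_neg δ A' b).mono_set (Set.inter_subset_left (t := {y | ∑ j, y j ≤ 0}))
    refine (h1.const_mul (B' * Real.exp (-2 * ∑ j, b j))).mono'
      (Measurable.aestronglyMeasurable (by fun_prop)) ?_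
    filter_upwards [ae_restrict_mem (fd_F0.1.inter measurableSet_half)] with y hy
    have h3 : ∑ j, y j ≤ 0 := hy.2
    rw [Real.norm_of_nonneg (by positivity)]
    refine (mul_le_mul_of_nonneg_left (hP y) (Real.exp_pos _).le).trans ?_
    have h4 : Real.exp (σ * ∑ j, y j) * Real.exp (-∑ j, y j) ≤
        Real.exp (-2 * ∑ j, b j) * Real.exp (2 * ∑ j, (b - y) j) := by
      rw [← Real.exp_add, ← Real.exp_add]
      simp only [Pi.sub_apply, sum_sub_distrib]
      exact Real.exp_le_exp.2 (by nlinarith)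
    have h5 := mul_le_mul_of_nonneg_left h4 (mul_nonneg hB (thr_nonneg δ A' (b - y)))
    linarith
  have hMm := diff_param (by fun_prop) hrm hir
  obtain ⟨κ, hκ⟩ := exists_kappa K
  have ht : (torsionOrder K : ℂ) ≠ 0 := by exact_mod_cast torsionOrder_ne_zero K
  refine ⟨fun s => ((s - 1) * ((∫ y in F0 K \ {y | ∑ j, y j ≤ 0},
      cexp (s * (∑ j, y j : ℝ)) * th δ A w y) + (∫ y in F0 K ∩ {y | ∑ j, y j ≤ 0},
      cexp (s * (∑ j, y j : ℝ)) * rem y) - c₀ * (κ / s)) + c * κ) /
      (torsionOrder K * gam K δ s * cexp (-s * Real.log (nrm A))), ?_, fun s hs => ?_⟩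
  · have h4 : ∀ s ∈ {s : ℂ | 0 < s.re}, s ≠ 0 := fun s (hs : 0 < s.re) h => by
      rw [h] at hs; norm_num at hs
    have h5 := diff_gam (K := K) δ
    refine DifferentiableOn.div ?_ (by fun_prop) fun s hs =>
      mul_ne_zero (mul_ne_zero ht (gam_ne δ hs)) (exp_ne_zero _)
    fun_prop (disch := assumption)
  have hs0 : 0 < s.re := by linarith
  obtain ⟨h1, h2⟩ := unfold_th δ fd_F0 A hw hs
  obtain ⟨h3, h4⟩ := hκ s hs0
  obtain ⟨h5, h6⟩ := hκ (s - 1) (by simp; linarith)
  have h7 : Integrable (fun y => cexp (s * (∑ j, y j : ℝ)) * rem y)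
      (volume.restrict (F0 K ∩ {y | ∑ j, y j ≤ 0})) := by
    refine (hir s.re hs0).mono'
      (Measurable.aestronglyMeasurable (by fun_prop)) (ae_of_all _ fun y => ?_)
    rw [norm_mul, norm_exp, re_mul_ofReal]
  have h8 : ∫ y in F0 K ∩ {y | ∑ j, y j ≤ 0}, cexp (s * (∑ j, y j : ℝ)) * th δ A w y =
      (∫ y in F0 K ∩ {y | ∑ j, y j ≤ 0}, cexp (s * (∑ j, y j : ℝ)) * rem y) +
        c * (κ / (s - 1)) - c₀ * (κ / s) := by
    rw [← h4, ← h6, ← integral_const_mul, ← integral_const_mul,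
      ← integral_add h7 (h5.const_mul c)]
    refine Eq.trans ?_ (integral_sub (h7.add (h5.const_mul c)) (h3.const_mul c₀))
    refine integral_congr_ae (ae_of_all _ fun y => ?_)
    have h8 : cexp ((s - 1) * (∑ j, y j : ℝ)) =
        cexp (s * (∑ j, y j : ℝ)) * cexp (-(∑ j, y j : ℝ)) := by
      rw [← Complex.exp_add]; congr 1; ring
    simp only [hrem, h8]
    ring
  rw [← integral_inter_add_sdiff measurableSet_half h1, h8] at h2
  have h9 : s - 1 ≠ 0 := fun h => by
    rw [sub_eq_zero.1 h] at hs; simp at hs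
  have h10 : (s - 1) * (κ / (s - 1)) = κ := by field_simp
  rw [div_eq_iff (mul_ne_zero (mul_ne_zero ht (gam_ne δ hs0)) (exp_ne_zero _))]
  linear_combination (s - 1) * h2 - c * h10

end Vale.Agent.N026
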