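import Vale.Agent.N026.Emb
import Vale.Agent.P016Z.Pois.Unfold

/-!
P026, extension to number fields, part 3: the lattice of logarithms of units and its fundamental
domains, for a number field of any signature.
-/

namespace Vale.Agent.N026

open NumberField NumberField.InfinitePlace NumberField.Units Complex Finset Module MeasureTheory
open scoped Real Classical
open Vale.Agent.P016Z.Pois (un uK uK_ne uK_mul)

variable {K : Type} [Field K] [NumberField K]

omit [NumberField K] in
/-- `lg` on units as a homomorphism -/
noncomputable def lgH : Additive (𝓞 K)ˣ →+ (InfinitePlace K → ℝ) where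
  toFun u := lg (uK u.toMul)
  map_zero' := by ext j; simp [lg, uK]
  map_add' u v := by rw [toMul_add, uK_mul, lg_mul (uK_ne _) (uK_ne _)]

theorem sum_lg_unit (u : (𝓞 K)ˣ) : ∑ j, lg (uK u) j = 0 := sum_mult_mul_log u

theorem lg_torsion {u : (𝓞 K)ˣ} (hu : u ∈ torsion K) : lg (uK u) = 0 := by
  ext j
  have h := (mem_torsion K).1 hu j
  simp only [lg, Pi.zero_apply]
  rw [show j (uK u) = 1 from h]
  simp

/-- the lattice vector with exponents `n` -/
noncomputable def lam (n : Fin (rank K) → ℤ) : InfinitePlace K → ℝ := lg (uK (un K n))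

theorem lam_eq (n : Fin (rank K) → ℤ) :
    lam n = ∑ i, (n i : ℝ) • lg (uK (fundSystem K i)) := by
  have h : lam n = lgH (Additive.ofMul (un K n)) := rfl
  rw [h, un, ofMul_prod, map_sum]
  refine sum_congr rfl fun i _ => ?_
  rw [ofMul_zpow, map_zsmul, Int.cast_smul_eq_zsmul]
  rfl

theorem card_option :
    Fintype.card (Option (Fin (rank K))) = finrank ℝ (InfinitePlace K → ℝ) := by
  rw [Fintype.card_option, Fintype.card_fin, finrank_fintype_fun_eq_card, rank]
  have : 0 < Fintype.card (InfinitePlace K) := Fintype.card_pos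
  omega

/-- the generators of the lattice together with a vector of trace one -/
noncomputable def gen (K : Type) [Field K] [NumberField K] :
    Option (Fin (rank K)) → InfinitePlace K → ℝ
  | none => fun _ => (Fintype.card (InfinitePlace K) : ℝ)⁻¹
  | some i => lg (uK (fundSystem K i))

theorem sum_gen_none : ∑ j, gen K none j = 1 := by
  simp [gen]

theorem gen_indep : LinearIndependent ℝ (gen K) := by
  rw [Fintype.linearIndependent_iff]
  intro g hg
  rw [Fintype.sum_option] at hg
  have h0 : g none = 0 := by
    have h := congrArg (fun y : InfinitePlace K → ℝ => ∑ j, y j) hg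
    simp only [Pi.add_apply, Pi.smul_apply, smul_eq_mul, Finset.sum_apply, sum_add_distrib,
      ← mul_sum, sum_gen_none, Pi.zero_apply, sum_const_zero] at h
    rw [sum_comm] at h
    simp only [← mul_sum, gen, sum_lg_unit, mul_zero, sum_const_zero] at h
    linarith
  rw [h0, zero_smul, zero_add] at hg
  have h1 := (Basis.ofZLatticeBasis ℝ (unitLattice K) (basisUnitLattice K)).linearIndependent
  rw [Fintype.linearIndependent_iff] at h1
  have h2 := h1 (fun i => g (some i)) (by
    ext w
    have h := congrFun hg w.1
    simp only [Finset.sum_apply, Pi.smul_apply, smul_eq_mul, Pi.zero_apply] at h ⊢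
    rw [← h]
    refine sum_congr rfl fun i _ => ?_
    rw [Basis.ofZLatticeBasis_apply, ← logEmbedding_fundSystem,
      dirichletUnitTheorem.logEmbedding_component]
    rfl)
  rintro (_ | i)
  · exact h0
  · exact h2 i

/-- the basis adapted to the unit lattice -/
noncomputable def ub (K : Type) [Field K] [NumberField K] :
    Basis (Option (Fin (rank K))) ℝ (InfinitePlace K → ℝ) :=
  basisOfLinearIndependentOfCardEqFinrank gen_indep card_option

theorem ub_apply (o : Option (Fin (rank K))) : ub K o = gen K o := by simp [ub]

theorem ub_none (y : InfinitePlace K → ℝ) : (ub K).repr y none = ∑ j, y j := by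
  have h : (ub K).coord none = ∑ j, LinearMap.proj j := by
    refine (ub K).ext fun o => ?_
    rw [Basis.coord_apply, Basis.repr_self, ub_apply]
    simp only [LinearMap.coe_sum, Finset.sum_apply, LinearMap.coe_proj, Function.eval]
    rcases o with _ | i
    · rw [sum_gen_none]; simp
    · simp [gen, sum_lg_unit]
  have := LinearMap.congr_fun h y
  simpa using this

theorem ub_lam (n : Fin (rank K) → ℤ) (i : Fin (rank K)) :
    (ub K).repr (lam n) (some i) = n i := by
  have h : ∀ k, lg (uK (fundSystem K k)) = ub K (some k) := fun k => (ub_apply (some k)).symm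
  simp [lam_eq, h, Finsupp.single_apply]

/-- fundamental domains of the unit lattice -/
def FD (F : Set (InfinitePlace K → ℝ)) : Prop :=
  MeasurableSet F ∧ ∀ y : InfinitePlace K → ℝ, ∃! n : Fin (rank K) → ℤ, y - lam n ∈ F

/-- the standard fundamental domain -/
def F0 (K : Type) [Field K] [NumberField K] : Set (InfinitePlace K → ℝ) :=
  {y | ∀ i, (ub K).repr y (some i) ∈ Set.Ico (0 : ℝ) 1}

theorem measurable_repr (o : Option (Fin (rank K))) :
    Measurable fun y : InfinitePlace K → ℝ => (ub K).repr y o :=
  ((ub K).coord o).continuous_of_finiteDimensional.measurable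

theorem fd_F0 : FD (F0 K) := by
  refine ⟨?_, fun y => ?_⟩
  · rw [F0, Set.ofPred_forall]
    exact MeasurableSet.iInter fun i => measurable_repr _ measurableSet_Ico
  have h : ∀ n : Fin (rank K) → ℤ, y - lam n ∈ F0 K ↔
      n = fun i => ⌊(ub K).repr y (some i)⌋ := by
    intro n
    simp only [F0, Set.mem_ofPred_eq, map_sub, Finsupp.sub_apply, ub_lam, Set.mem_Ico, funext_iff]
    refine forall_congr' fun i => ?_
    rw [eq_comm, Int.floor_eq_iff]
    constructor <;> rintro ⟨h1, h2⟩ <;> constructor <;> linarith
  simp only [h]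
  exact existsUnique_eq

theorem lam_neg (n : Fin (rank K) → ℤ) : lam (-n) = -lam n := by
  simp [lam_eq]

/-- reflected and translated fundamental domains -/
theorem FD.neg {F : Set (InfinitePlace K → ℝ)} (h : FD F) (a : InfinitePlace K → ℝ) :
    FD {y | a - y ∈ F} := by
  refine ⟨(measurable_const.sub measurable_id) h.1, fun y => ?_⟩
  obtain ⟨n, hn, hu⟩ := h.2 (a - y)
  refine ⟨-n, ?_, fun m hm => ?_⟩
  · change a - (y - lam (-n)) ∈ F
    rw [lam_neg]
    rwa [show a - (y - -lam n) = a - y - lam n by abel]
  · have : -m = n := hu (-m) (by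
      change a - y - lam (-m) ∈ F
      rw [lam_neg]
      change a - (y - lam m) ∈ F at hm
      rwa [show a - y - -lam m = a - (y - lam m) by abel])
    rw [← this, neg_neg]

/-- the exponential of the trace on the lower half of the standard domain -/
theorem exists_kappa (K : Type) [Field K] [NumberField K] : ∃ κ : ℝ, ∀ z : ℂ, 0 < z.re →
    IntegrableOn (fun y : InfinitePlace K → ℝ => cexp (z * (∑ j, y j : ℝ)))
      (F0 K ∩ {y | ∑ j, y j ≤ 0}) ∧
    ∫ y in F0 K ∩ {y | ∑ j, y j ≤ 0}, cexp (z * (∑ j, y j : ℝ)) = κ / z := by
  let e : (InfinitePlace K → ℝ) ≃L[ℝ] (Option (Fin (rank K)) → ℝ) := (ub K).equivFunL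
  have hc : (volume : Measure (InfinitePlace K → ℝ)).map e =
      Measure.addHaarScalarFactor ((volume : Measure (InfinitePlace K → ℝ)).map e) volume •
        volume := Measure.isAddLeftInvariant_eq_smul _ _
  set c := Measure.addHaarScalarFactor ((volume : Measure (InfinitePlace K → ℝ)).map e) volume
  refine ⟨c, fun z hz => ?_⟩
  let f : Option (Fin (rank K)) → ℝ → ℂ := fun o =>
    o.elim ((Set.Iic 0).indicator fun x => cexp (z * x)) fun _ =>
      (Set.Ico (0 : ℝ) 1).indicator fun _ => 1
  have hf : ∀ o, Integrable (f o) := by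
    rintro (_ | i)
    · exact (integrable_indicator_iff measurableSet_Iic).2 (integrableOn_exp_mul_complex_Iic hz 0)
    · exact (integrable_indicator_iff measurableSet_Ico).2 (integrableOn_const (by simp))
  have hm : MeasurableSet (F0 K ∩ {y | ∑ j, y j ≤ 0}) :=
    fd_F0.1.inter (measurableSet_le (by fun_prop) measurable_const)
  have h1 : (F0 K ∩ {y | ∑ j, y j ≤ 0}).indicator
      (fun y : InfinitePlace K → ℝ => cexp (z * (∑ j, y j : ℝ))) = fun y => ∏ o, f o (e y o) := by
    ext y
    have he : ∀ o, e y o = (ub K).repr y o := fun o => rfl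
    simp only [Fintype.prod_option, he, ub_none, f, Option.elim]
    by_cases h : y ∈ F0 K
    · rw [prod_eq_one fun i _ => Set.indicator_of_mem (h i) _, mul_one]
      by_cases h' : ∑ j, y j ≤ 0
      · rw [Set.indicator_of_mem (Set.mem_inter h h'), Set.indicator_of_mem (Set.mem_Iic.2 h')]
      · rw [Set.indicator_of_notMem (fun h'' => h' h''.2),
          Set.indicator_of_notMem (mt Set.mem_Iic.1 h')]
    · rw [Set.indicator_of_notMem (fun h'' => h h''.1)]
      obtain ⟨i, hi⟩ := not_forall.1 h
      rw [prod_eq_zero (mem_univ i) (Set.indicator_of_notMem hi _), mul_zero]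
  have h2 : Integrable (fun v : Option (Fin (rank K)) → ℝ => ∏ o, f o (v o))
      ((volume : Measure (InfinitePlace K → ℝ)).map e) := by
    rw [hc]
    exact (Integrable.fintype_prod hf).smul_measure_nnreal
  have hme : MeasurableEmbedding e := e.toHomeomorph.measurableEmbedding
  constructor
  · rw [← integrable_indicator_iff hm, h1]
    exact (hme.integrable_map_iff).1 h2
  · rw [← integral_indicator hm, h1,
      ← hme.integral_map (fun v : Option (Fin (rank K)) → ℝ => ∏ o, f o (v o)), hc,
      integral_smul_nnreal_measure, integral_fintype_prod_volume_eq_prod, Fintype.prod_option]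
    simp only [f, Option.elim]
    rw [integral_indicator measurableSet_Iic, integral_exp_mul_complex_Iic hz,
      integral_indicator measurableSet_Ico]
    simp [NNReal.smul_def, div_eq_mul_inv]

end Vale.Agent.N026
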