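import Vale.Agent.N026.Hek
import Vale.Agent.P016Z.Cheb.NonVan
import Vale.Agent.P016Z.Cheb.ExpLog
import Vale.Agent.P016Z.Cheb.Split
import Mathlib.NumberTheory.DirichletCharacter.Orthogonality
import Mathlib.NumberTheory.LSeries.Nonvanishing

/-!
P026, extension to number fields, part 6: the zero-free half-plane for the series
`∑ χ(N I) N(I)^{-s}` of every number field, from the Moebius bound for the fields which contain
the twelfth roots of unity.
-/

namespace Vale.Agent.N026

open Filter Topology NumberField Finset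
open Vale.Agent.P016Z Vale.Agent.P016Z.EP

/-- primes of degree one in `K(ζ_m)` -/
theorem spl (K L : Type) [Field K] [NumberField K] [Field L] [NumberField L] [Algebra K L]
    {m : ℕ} [NeZero m] [IsCyclotomicExtension {m} K L] {p : ℕ} (hp : p.Prime) (h3 : m < p) :
    aK L p = if (p : ZMod m) = 1 then Module.finrank K L * aK K p else 0 := by
  have hζ := IsCyclotomicExtension.zeta_spec m K L
  have hiff : (p : ZMod m) = 1 ↔ m ∣ p - 1 := by
    rw [← Nat.cast_one, eq_comm, ZMod.natCast_eq_natCast_iff, Nat.modEq_iff_dvd' hp.one_le]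
  split_ifs with h
  · have : IsGalois K L := IsCyclotomicExtension.isGalois {m} K L
    refine aK_eq_of_radical (n := m) (a := 1) hp (hiff.1 h)
      (fun e => hp.one_lt.ne' (by exact_mod_cast Int.eq_one_of_dvd_one (by positivity) e))
      (by simp) ?_
    rw [eq_top_iff, ← IsCyclotomicExtension.adjoin_primitive_root_eq_top hζ]
    exact Algebra.adjoin_mono (Set.singleton_subset_iff.2 (by simpa using hζ.pow_eq_one))
  · rw [aK, Nat.card_eq_zero]
    left
    refine ⟨fun ⟨P, hP⟩ => h ?_⟩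
    have : P.IsPrime := Ideal.isPrime_of_irreducible_absNorm (hP ▸ (hp : Irreducible p))
    have hP0 : P ≠ ⊥ := fun e => hp.ne_zero (by rw [← hP, e, Ideal.absNorm_bot])
    have : P.IsMaximal := Ring.DimensionLEOne.maximalOfPrime hP0 inferInstance
    have hc : p.Coprime m := by
      rw [Nat.Prime.coprime_iff_not_dvd hp]
      intro e
      have := Nat.le_of_dvd (NeZero.pos m) e
      omega
    have h1 := hζ.toInteger_isPrimitiveRoot.idealQuotient_mk (I := P)
      (by rw [hP]; exact hp.one_lt.ne') (by rw [hP]; exact hc)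
    let _ := Ideal.Quotient.field P
    have := Fintype.ofFinite (𝓞 L ⧸ P)
    have h2 := h1.dvd_of_pow_eq_one _
      (FiniteField.pow_card_sub_one_eq_one _ (h1.ne_zero (NeZero.ne m)))
    have h4 : Fintype.card (𝓞 L ⧸ P) = p := by
      rw [← hP, Ideal.absNorm_apply, Submodule.cardQuot_apply, Nat.card_eq_fintype_card]
    rw [h4] at h2
    exact hiff.2 h2

theorem exists_entire (K L : Type) [Field K] [NumberField K] [Field L] [NumberField L]
    [Algebra K L] {m : ℕ} [NeZero m] [IsCyclotomicExtension {m} K L] {N : ℕ} (hN : N ≠ 0)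
    (c : DirichletCharacter ℂ m → ℕ →* ℂ) (hc : ∀ ψ n, ‖c ψ n‖ ≤ 1)
    (hc' : ∀ ψ p, p.Prime → m < p → c ψ p = ψ p) :
    ∃ E : ℂ → ℂ, Differentiable ℂ E ∧ ∀ s : ℂ, 1 < s.re → m.totient * PK L (MI.chi0 N) s =
      Module.finrank K L * ∑ ψ, PK K (c ψ) s + E s := by
  set d : ℂ := ((Module.finrank K L : ℕ) : ℂ) with hd
  set a : ℕ → ℂ := fun n => if n.Prime then MI.chi0 N n * aK L n else 0 with ha
  set b : DirichletCharacter ℂ m → ℕ → ℂ := fun ψ n => if n.Prime then c ψ n * aK K n else 0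
    with hb
  set e : ℕ → ℂ := (m.totient : ℂ) • a - d • ∑ ψ, b ψ with he
  have h1 : ∀ n, N + m + 1 ≤ n → e n = 0 := by
    intro n hn
    simp only [he, ha, hb, Pi.sub_apply, Pi.smul_apply, Finset.sum_apply, smul_eq_mul]
    by_cases hp : n.Prime
    · have hcop : n.Coprime N := (Nat.Prime.coprime_iff_not_dvd hp).2 fun h => by
        have := Nat.le_of_dvd (Nat.pos_of_ne_zero hN) h
        omega
      have h2 := spl K L (m := m) hp (by omega)
      simp only [if_pos hp, MI.chi0_apply, if_pos hcop, hc' _ n hp (by omega)]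
      rw [← sum_mul, DirichletCharacter.sum_characters_eq, h2]
      split_ifs
      · push_cast; ring
      · simp
    · simp [if_neg hp]
  refine ⟨LSeries e, NV.differentiable_lseries h1, fun s hs => ?_⟩
  have s0 : ∀ ψ, LSeriesSummable (b ψ) s := fun ψ => summable_PK (hc ψ) hs
  have s4 : LSeriesSummable a s := summable_PK (MI.norm_chi0_le N) hs
  rw [he, LSeries_sub (s4.smul _) ((LSeriesSummable.sum fun ψ _ => s0 ψ).smul _), LSeries_smul,
    LSeries_smul, LSeries_sum fun ψ _ => s0 ψ]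
  change _ * LSeries a s = d * ∑ ψ, LSeries (b ψ) s + _
  ring

theorem nonvan_family {θ : ℝ} (h1 : 3 / 4 ≤ θ) (hM : MUB θ) (K : Type) [Field K] [NumberField K]
    {m : ℕ} [NeZero m] (h12 : 12 ∣ m) (c : DirichletCharacter ℂ m → ℕ →* ℂ)
    (hc : ∀ ψ n, ‖c ψ n‖ ≤ 1) (hc' : ∀ ψ p, p.Prime → m < p → c ψ p = ψ p)
    (F : DirichletCharacter ℂ m → ℂ → ℂ) (hF1 : ∀ ψ, DifferentiableOn ℂ (F ψ) {s | θ < s.re})
    (hF2 : ∀ ψ s, 1 < s.re → F ψ s = (s - 1) * LK K (c ψ) s) {ρ : ℂ} (hρ : θ < ρ.re)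
    (hρ1 : ρ ≠ 1) (ψ : DirichletCharacter ℂ m) : F ψ ρ ≠ 0 := by
  let L := CyclotomicField m K
  obtain ⟨k, hk⟩ := h12
  obtain ⟨N, hN, hN'⟩ := muInv L θ (hM L _ ((IsCyclotomicExtension.zeta_spec m K L).pow
    (NeZero.pos m) (hk.trans (mul_comm _ _))))
  obtain ⟨M, V, hM1, hV1, hV2, hMV⟩ := hN' ρ
  obtain ⟨E, hE1, hE2⟩ := exists_entire K L hN c hc hc'
  obtain ⟨C, hE⟩ := expLog
  obtain ⟨g, hg1, -, hg2⟩ := hE L (MI.chi0 N) (MI.norm_chi0_le N)
  choose g0 h01 _ h02 using fun ψ => hE K (c ψ) (hc ψ)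
  set d := Module.finrank K L with hd
  set f := m.totient with hf
  have hd0 : d ≠ 0 := by
    have : FiniteDimensional K L := IsCyclotomicExtension.finiteDimensional {m} K L
    exact Module.finrank_pos.ne'
  have hcard : (univ : Finset (DirichletCharacter ℂ m)).card = f := by
    rw [card_univ, ← Nat.card_eq_fintype_card,
      DirichletCharacter.card_eq_totient_of_hasEnoughRootsOfUnity]
  set U : Set ℂ := {s | θ < s.re} with hU
  have hUo : IsOpen U := isOpen_lt continuous_const Complex.continuous_re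
  have hUc : IsPreconnected U := (convex_halfSpace_re_gt θ).isPreconnected
  have hsub : U ⊆ {s : ℂ | 3 / 4 < s.re} := fun s hs => lt_of_le_of_lt h1 hs
  have hA : AnalyticOnNhd ℂ (fun s => V s ^ f * ((s - 1) ^ f) ^ d) U := by
    refine DifferentiableOn.analyticOnNhd (fun s _ => ?_) hUo
    refine DifferentiableAt.differentiableWithinAt ?_
    have := hV1 s
    fun_prop
  have hB : AnalyticOnNhd ℂ (fun s => M s ^ f *
      Complex.exp (E s + f * g s - d * ∑ ψ, g0 ψ s) * (∏ ψ, F ψ s) ^ d) U := by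
    refine DifferentiableOn.analyticOnNhd ?_ hUo
    exact ((hM1.pow f).mul ((hE1.differentiableOn.add ((hg1.mono hsub).const_mul _)).sub
      ((DifferentiableOn.fun_sum fun ψ _ => (h01 ψ).mono hsub).const_mul _)).cexp).mul
        ((DifferentiableOn.fun_finsetProd fun ψ _ => hF1 ψ).pow d)
  set z₀ : ℂ := ((max θ 1 + 1 : ℝ) : ℂ) with hz₀
  have hz1 : z₀ ∈ U := by
    change θ < z₀.re
    rw [hz₀, Complex.ofReal_re]; linarith [le_max_left θ 1]
  have hz2 : 1 < z₀.re := by rw [hz₀, Complex.ofReal_re]; linarith [le_max_right θ 1]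
  have h3 : (fun s => V s ^ f * ((s - 1) ^ f) ^ d) =ᶠ[𝓝 z₀] fun s => M s ^ f *
      Complex.exp (E s + f * g s - d * ∑ ψ, g0 ψ s) * (∏ ψ, F ψ s) ^ d := by
    filter_upwards [(isOpen_lt continuous_const Complex.continuous_re).mem_nhds
      (show z₀ ∈ {s : ℂ | 1 < s.re} from hz2)] with s hs
    have b1 : M s * LK L (MI.chi0 N) s = V s := hMV s hs
    have b2 : ∏ ψ, F ψ s = (s - 1) ^ f * Complex.exp (∑ ψ, PK K (c ψ) s + ∑ ψ, g0 ψ s) := by
      rw [← sum_add_distrib, Complex.exp_sum, ← hcard, ← prod_const, ← prod_mul_distrib]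
      exact prod_congr rfl fun ψ _ => by rw [hF2 ψ s hs, h02 ψ s hs]
    have b3 : Complex.exp (PK L (MI.chi0 N) s + g s) ^ f =
        Complex.exp (E s + f * g s - d * ∑ ψ, g0 ψ s) *
          Complex.exp (∑ ψ, PK K (c ψ) s + ∑ ψ, g0 ψ s) ^ d := by
      rw [← Complex.exp_nat_mul, ← Complex.exp_nat_mul, ← Complex.exp_add]
      congr 1
      linear_combination hE2 s hs
    rw [← b1, b2, hg2 s hs, mul_pow, mul_pow, b3]
    ring
  have h4 := hA.eqOn_of_preconnected_of_eventuallyEq hB hUc hz1 h3 (show ρ ∈ U from hρ)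
  intro h
  simp only [prod_eq_zero (f := fun ψ => F ψ ρ) (mem_univ ψ) h, zero_pow hd0, mul_zero] at h4
  exact mul_ne_zero (pow_ne_zero _ hV2) (pow_ne_zero _ (pow_ne_zero _ (sub_ne_zero.2 hρ1))) h4

/-- a Dirichlet character as a function on the natural numbers -/
noncomputable def nch {q : ℕ} (χ : DirichletCharacter ℂ q) : ℕ →* ℂ where
  toFun n := χ n
  map_one' := by simp
  map_mul' a b := by simp

/-- continuation of the twisted zeta function -/
theorem exists_cont (K : Type) [Field K] [NumberField K] {q : ℕ} [NeZero q]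
    (χ : DirichletCharacter ℂ q) : ∃ F : ℂ → ℂ, DifferentiableOn ℂ F {s | 0 < s.re} ∧
      ∀ s : ℂ, 1 < s.re → F s = (s - 1) * LK K (fun n => χ n) s := by
  have hp : ∀ a b : ℤ, (q : ℤ) ∣ a - b → χ (a : ZMod q) = χ (b : ZMod q) := fun a b h => by
    rw [((ZMod.intCast_eq_intCast_iff_dvd_sub b a q).2 h).symm]
  rcases χ.even_or_odd with h | h
  · simpa using hecke K (δ := 0) zero_le_one (NeZero.ne q) (W := fun a => χ (a : ZMod q))
      (fun n => by simp [DirichletCharacter.Even.eval_neg χ _ h]) (fun n => χ.norm_le_one _) hp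
  · simpa using hecke K (δ := 1) le_rfl (NeZero.ne q) (W := fun a => χ (a : ZMod q))
      (fun n => by simp [DirichletCharacter.Odd.eval_neg χ _ h]) (fun n => χ.norm_le_one _) hp

/-- **The zero-free half-plane** for the twisted zeta functions of every number field. -/
theorem nonvan {θ : ℝ} (h1 : 3 / 4 ≤ θ) (hM : MUB θ) (K : Type) [Field K] [NumberField K]
    {q : ℕ} [NeZero q] (χ : DirichletCharacter ℂ q) {F : ℂ → ℂ}
    (hF1 : DifferentiableOn ℂ F {s | θ < s.re})
    (hF2 : ∀ s, 1 < s.re → F s = (s - 1) * LK K (fun n => χ n) s) {ρ : ℂ} (hρ : θ < ρ.re)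
    (hρ1 : ρ ≠ 1) : F ρ ≠ 0 := by
  classical
  have : NeZero (12 * q) := ⟨mul_ne_zero (by norm_num) (NeZero.ne q)⟩
  have hq : q ∣ 12 * q := dvd_mul_left _ _
  set χ' := DirichletCharacter.changeLevel hq χ with hχ'
  choose G hG1 hG2 using fun ψ : DirichletCharacter ℂ (12 * q) => exists_cont K ψ
  have key := nonvan_family h1 hM K (dvd_mul_right 12 q)
    (fun ψ => if ψ = χ' then nch χ else nch ψ) (fun ψ n => by
      split_ifs
      · exact χ.norm_le_one _
      · exact ψ.norm_le_one _) (fun ψ p hp hlt => by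
      split_ifs with h
      · have hc : p.Coprime (12 * q) := (Nat.Prime.coprime_iff_not_dvd hp).2 fun e => by
          have := Nat.le_of_dvd (NeZero.pos _) e
          omega
        have := DirichletCharacter.changeLevel_eq_cast_of_dvd' χ hq (a := (p : ℤ))
          (Nat.isCoprime_iff_coprime.2 hc)
        rw [h]
        simpa [nch, hχ'] using this.symm
      · rfl) (fun ψ => if ψ = χ' then F else G ψ) (fun ψ => by
      split_ifs
      · exact hF1
      · exact (hG1 ψ).mono fun s (hs : θ < s.re) => show 0 < s.re by linarith) (fun ψ s hs => by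
      split_ifs
      · exact hF2 s hs
      · exact hG2 ψ s hs) hρ hρ1 χ'
  simpa using key

theorem aK_rat {n : ℕ} (hn : n ≠ 0) : aK ℚ n = 1 := by
  have h0 : Ideal.absNorm (Ideal.span {(n : 𝓞 ℚ)}) = n := by
    rw [Ideal.absNorm_span_natCast, RingOfIntegers.rank, Module.finrank_self, pow_one]
  rw [aK, Nat.card_eq_one_iff_unique]
  have key : ∀ I : Ideal (𝓞 ℚ), Ideal.absNorm I = n → I = Ideal.span {(n : 𝓞 ℚ)} := by
    intro I hI
    have h1 : Ideal.span {(n : 𝓞 ℚ)} ≤ I := by
      rw [Ideal.span_singleton_le_iff_mem, ← hI]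
      exact Ideal.absNorm_mem I
    obtain ⟨J, hJ⟩ := Ideal.dvd_iff_le.2 h1
    have h2 : n * 1 = n * Ideal.absNorm J := by
      rw [mul_one]
      conv_lhs => rw [← h0, hJ, map_mul, hI]
    have h3 := Ideal.absNorm_eq_one_iff.1 (Nat.eq_of_mul_eq_mul_left (Nat.pos_of_ne_zero hn) h2).symm
    rw [hJ, h3, Ideal.mul_top]
  exact ⟨⟨fun I J => Subtype.ext ((key _ I.2).trans (key _ J.2).symm)⟩, ⟨⟨_, h0⟩⟩⟩

theorem LK_rat (w : ℕ → ℂ) (s : ℂ) : LK ℚ w s = LSeries w s := by
  refine LSeries_congr (fun {n} hn => ?_) s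
  rw [aK_rat hn, Nat.cast_one, mul_one]

open DirichletCharacter in
/-- the zero-free half-plane for Dirichlet `L`-functions -/
theorem dirichlet {θ : ℝ} (h1 : 3 / 4 ≤ θ) (hM : MUB θ) {q : ℕ} [NeZero q]
    (χ : DirichletCharacter ℂ q) {s : ℂ} (hs : θ < s.re) (h : χ ≠ 1 ∨ s ≠ 1) :
    LFunction χ s ≠ 0 := by
  by_cases hs1 : s = 1
  · exact LFunction_ne_zero_of_one_le_re χ h (by simp [hs1])
  have hne : ∀ z : ℂ, 1 < z.re → z ≠ 1 := fun z hz e => by simp [e] at hz
  by_cases hχ : χ = 1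
  · subst hχ
    have := nonvan h1 hM ℚ (1 : DirichletCharacter ℂ q) (F := LFunctionTrivChar₁ q)
      (differentiable_LFunctionTrivChar₁ q).differentiableOn (fun z hz => by
        rw [LK_rat, ← LFunction_eq_LSeries _ hz]
        exact Function.update_of_ne (hne z hz) ..) hs hs1
    rw [show LFunctionTrivChar₁ q s = (s - 1) * LFunction (1 : DirichletCharacter ℂ q) s from
      Function.update_of_ne hs1 ..] at this
    exact right_ne_zero_of_mul this
  · have hd := differentiable_LFunction hχ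
    exact right_ne_zero_of_mul (nonvan h1 hM ℚ χ (F := fun z => (z - 1) * LFunction χ z)
      (by fun_prop) (fun z hz => by rw [LK_rat, ← LFunction_eq_LSeries _ hz]) hs hs1)

theorem zeta {θ : ℝ} (h1 : 3 / 4 ≤ θ) (hM : MUB θ) {s : ℂ} (hs : θ < s.re) :
    riemannZeta s ≠ 0 := by
  by_cases hs1 : s = 1
  · exact riemannZeta_ne_zero_of_one_le_re (by simp [hs1])
  · rw [← DirichletCharacter.LFunction_modOne_eq (χ := 1)]
    exact dirichlet h1 hM 1 hs (Or.inr hs1)

end Vale.Agent.N026
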